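import Vale.Agent.P205F.NashMoser.Setting

/-!
# P205, Nash-Moser: one problem fed into the abstract iteration
-/

namespace Vale.Agent.P205F.NM

open scoped ContDiff Topology
open Filter

set_option maxSynthPendingDepth 3

/-- The constants of the estimates, independent of the problem. -/
structure Consts (D : Inv) where
  Cs : ℕ → ℝ
  Ca : ℕ → ℝ
  Cl : ℕ → ℝ
  ml : ℕ → ℕ
  Cp : ℕ → ℝ
  mp : ℕ → ℕ
  nonneg : ∀ N, 0 ≤ Cs N ∧ 0 ≤ Ca N ∧ 0 ≤ Cl N ∧ 0 ≤ Cp N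
  gain : ∀ s (θ : ℝ), 1 ≤ θ → ∀ (u : E2 → R4) (M : ℝ), 0 ≤ M → Sm u → (∀ x, ‖u x‖ ≤ M) →
    Bnd s (smooth θ u) (Cs s * θ ^ s * M)
  approx : ∀ N (T : ℝ) (v : E2 → R4) (M : ℝ), 2 ≤ N → 1 ≤ T → 0 ≤ M → Sm v → Bnd N v M →
    Bnd 1 (v - smooth (T ^ 3) v) (Ca N * M * (T ^ 3 / T ^ (3 * N)))
  low : ∀ N {k0 : ℕ} {U K : Set E2} {f : E2 → R4} {e : E2 → S3} {lam β T : ℝ} {u : E2 → R4},
    2 ≤ N → 1 ≤ T → Stage D k0 N U K f e lam β (T ^ 2) u → ∀ A, 0 ≤ A →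
    (∀ x, ‖res f e lam u x‖ ≤ A) → ∀ x, ‖pop D f e lam u x‖ ≤
      Cl N * β ^ ml N * (T ^ (3 * D.L) * A + T ^ (3 * D.L + 2 * N + 2) / T ^ (3 * N))
  high : ∀ n {k0 : ℕ} {U K : Set E2} {f : E2 → R4} {e : E2 → S3} {lam β Θ : ℝ} {u : E2 → R4},
    Stage D k0 n U K f e lam β Θ u →
      Bnd n (pop D f e lam u) (Cp n * β ^ mp n * Θ ^ (n + D.L))

theorem exists_consts (D : Inv) : Nonempty (Consts D) := by
  choose Cs hCs0 hCs using fun s => smooth_gain (G := R4) s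
  have hlow0 : ∀ N, ∃ (C : ℝ) (m : ℕ), 0 ≤ C ∧ ∀ {k0 : ℕ} {U K : Set E2} {f : E2 → R4}
      {e : E2 → S3} {lam β T : ℝ} {u : E2 → R4}, 2 ≤ N → 1 ≤ T →
      Stage D k0 N U K f e lam β (T ^ 2) u → ∀ A, 0 ≤ A → (∀ x, ‖res f e lam u x‖ ≤ A) →
      ∀ x, ‖pop D f e lam u x‖ ≤
        C * β ^ m * (T ^ (3 * D.L) * A + T ^ (3 * D.L + 2 * N + 2) / T ^ (3 * N)) := by
    intro N
    by_cases hN : 2 ≤ N
    · obtain ⟨C, m, hC, h⟩ := low_est D N (by omega)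
      exact ⟨C, m, hC, fun _ => h⟩
    · exact ⟨0, 0, le_rfl, fun h => absurd h hN⟩
  have happ0 : ∀ N, ∃ C : ℝ, 0 ≤ C ∧ ∀ (T : ℝ) (v : E2 → R4) (M : ℝ), 2 ≤ N → 1 ≤ T → 0 ≤ M →
      Sm v → Bnd N v M → Bnd 1 (v - smooth (T ^ 3) v) (C * M * (T ^ 3 / T ^ (3 * N))) := by
    intro N
    by_cases hN : 2 ≤ N
    · obtain ⟨C, hC, h⟩ := approx_est N hN
      exact ⟨C, hC, fun T v M _ => h T v M⟩
    · exact ⟨0, le_rfl, fun _ _ _ h => absurd h hN⟩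
  choose Cl ml hCl0 hCl using hlow0
  choose Ca hCa0 hCa using happ0
  choose Cp mp hCp0 hCp using pop_bnd D
  exact ⟨⟨Cs, Ca, Cl, ml, Cp, mp, fun N => ⟨hCs0 N, hCa0 N, hCl0 N, hCp0 N⟩, hCs, hCa, hCl,
    fun n {_ _ _ _ _ _ _ _ _} S => (hCp n S).1⟩⟩

/-- A normalised problem: radius `δv` of the ball, growth constants `B` and `β`. -/
structure Problem (D : Inv) (k0 : ℕ) (U K : Set E2) (f : E2 → R4) (e : E2 → S3)
    (lam T0 ε δv : ℝ) (β B : ℕ → ℝ) : Prop where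
  hN : max D.N 1 ≤ k0
  hU : IsOpen U
  hK : IsCompact K
  hεU : Metric.cthickening ε K ⊆ U
  hT : 4 ≤ T0
  hρ : 4 / T0 ≤ ε
  hf : ContDiff ℝ ∞ f
  he : ContDiff ℝ ∞ e
  he0 : ∀ x ∉ K, e x = 0
  hlam : |lam| ≤ 1
  hβ : ∀ n, 1 ≤ β n
  stab : ∀ u, ContDiff ℝ ∞ u → Bnd k0 u δv → ∀ n, ∀ x ∈ U,
    (β n)⁻¹ ≤ D.den (jet D.N (f + lam • u) x)
  hBβ : ∀ n, ∀ i ≤ n + D.L, B i ≤ β n
  hfβ : ∀ n, ∀ i ≤ n + D.L + k0, ∀ x ∈ U, ‖iteratedFDeriv ℝ i f x‖ ≤ β n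
  heβ : ∀ n, ∀ i ≤ n + D.L, ∀ x, ‖iteratedFDeriv ℝ i e x‖ ≤ β n

variable {D : Inv} {k0 : ℕ} {U K : Set E2} {f : E2 → R4} {e : E2 → S3}
  {lam T0 ε δv : ℝ} {β B : ℕ → ℝ}

/-- The admissible region at stage `k`. -/
def stageSet (T0 : ℝ) (K : Set E2) (k : ℕ) : Set E2 :=
  Metric.cthickening (4 / T0 * (1 - (1 / 2) ^ k)) K

lemma stageSet_sub (hT : 4 ≤ T0) (hρ : 4 / T0 ≤ ε) (k : ℕ) :
    stageSet T0 K k ⊆ Metric.cthickening ε K := by
  refine Metric.cthickening_mono (le_trans (mul_le_of_le_one_right ?_ ?_) hρ) K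
  · exact div_nonneg (by norm_num) (by linarith)
  · have : (0 : ℝ) ≤ (1 / 2) ^ k := by positivity
    linarith

lemma stage_step (hT : 4 ≤ T0) {v : E2 → R4} (k : ℕ) (hv : ∀ x ∉ stageSet T0 K k, v x = 0)
    {x : E2} (hx : x ∉ stageSet T0 K (k + 1)) :
    smooth (scale T0 k ^ 3) v x = 0 ∧ x ∉ stageSet T0 K k := by
  have hT1 : 1 ≤ scale T0 k := by linarith [le_scale hT k]
  have hT0 : 0 < T0 := by linarith
  have hr : 1 / √(scale T0 k ^ 3) ≤ 1 / (T0 * 2 ^ k) := by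
    refine one_div_le_one_div_of_le (by positivity) ((scale_bound hT k).trans ?_)
    rw [Real.le_sqrt (by linarith) (by positivity)]
    exact pow_le_pow_right₀ hT1 (by norm_num)
  have h1 : (0 : ℝ) ≤ 1 - (1 / 2) ^ k := sub_nonneg.2 (pow_le_one₀ (by norm_num) (by norm_num))
  refine ⟨smooth_support (by positivity) hr hv fun hm => hx ?_, fun hm => hx ?_⟩
  · have h2 := Metric.cthickening_cthickening_subset
      (show (0 : ℝ) ≤ 1 / (T0 * 2 ^ k) + 1 / (T0 * 2 ^ k) by positivity)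
      (show (0 : ℝ) ≤ 4 / T0 * (1 - (1 / 2) ^ k) by positivity) K hm
    refine Metric.cthickening_mono (le_of_eq ?_) K h2
    rw [one_div_pow, one_div_pow, pow_succ]
    field_simp
    ring
  · refine Metric.cthickening_mono (mul_le_mul_of_nonneg_left ?_ (by positivity)) K hm
    have : (1 / 2 : ℝ) ^ (k + 1) ≤ (1 / 2) ^ k :=
      pow_le_pow_of_le_one (by norm_num) (by norm_num) (Nat.le_succ k)
    linarith

/-- The bound predicate of the iteration. -/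
def BdP (s : ℕ) (v : E2 → R4) (M : ℝ) : Prop := Sm v ∧ Bnd s v M

/-- The admissibility predicate of the iteration. -/
def AdmP (T0 : ℝ) (K : Set E2) (k : ℕ) (v : E2 → R4) : Prop :=
  Sm v ∧ ∀ x ∉ stageSet T0 K k, v x = 0

lemma Problem.stage (P : Problem D k0 U K f e lam T0 ε δv β B) {k : ℕ} {u : E2 → R4}
    (hA : AdmP T0 K k u) (hl : BdP k0 u δv)
    (hg : ∀ r, BdP (k0 + r) u (B r * scale T0 k ^ (2 * r))) (n : ℕ) :
    Stage D k0 n U (stageSet T0 K k) f e lam (β n) (scale T0 k ^ 2) u := by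
  refine ⟨P.hU, P.hK.cthickening, (stageSet_sub P.hT P.hρ k).trans P.hεU, P.hN, P.hf, P.he,
    hA.1.1, fun x hx => P.he0 x fun h => hx (Metric.self_subset_cthickening K h), hA.2, P.hlam,
    P.hβ n, one_le_pow₀ (by linarith [le_scale P.hT k, P.hT]), P.stab u hA.1.1 hl.2 n,
    fun i hi l hl x hx => P.hfβ n (i + l) (by omega) x hx, P.heβ n, fun i hi l hl x => ?_⟩
  refine ((hg i).2 (i + l) (by omega) x).trans ?_
  rw [← pow_mul]
  exact mul_le_mul_of_nonneg_right (P.hBβ n i hi)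
    (pow_nonneg (by linarith [le_scale P.hT k, P.hT]) _)

/-- The hypotheses of the abstract iteration. -/
lemma Problem.hyp (P : Problem D k0 U K f e lam T0 ε δv β B) (c : Consts D) (hδv : δv ≤ 1)
    (hB : ∀ r, B r = c.Cs (k0 + r) + 1) :
    Hyp D.L k0 T0 δv B c.Cs (fun N => c.Cl N * β N ^ c.ml N) (fun N => c.Cp N * β N ^ c.mp N) c.Ca
      (2 * ‖quad‖ * β 0) BdP (fun v A => ∀ x, ‖res f e lam v x‖ ≤ A) (AdmP T0 K)
      (pop D f e lam) (fun k v => smooth (scale T0 k ^ 3) v) := by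
  have hT1 : ∀ k, 1 ≤ scale T0 k := fun k => by linarith [le_scale P.hT k, P.hT]
  have hpos : ∀ k, 0 < scale T0 k ^ 3 := fun k => pow_pos (by linarith [hT1 k]) 3
  constructor
  · exact fun s s' v M M' hs hM h => ⟨h.1, fun i hi x => (h.2 i (hi.trans hs) x).trans hM⟩
  · exact fun v A A' hA h x => (h x).trans hA
  · exact fun s => ⟨sm_zero, bnd_zero s⟩
  · exact fun s v w M N h1 h2 => ⟨h1.1.add h2.1, bnd_add h1.1 h2.1 h1.2 h2.2⟩
  · exact ⟨sm_zero, fun x _ => rfl⟩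
  · intro k u hA hl hg
    have S := P.stage hA hl hg 0
    refine ⟨hA.1.add (S.popSm.smooth (hpos k)), fun x hx => ?_⟩
    obtain ⟨h1, h2⟩ := stage_step P.hT (v := pop D f e lam u) k
      (fun y hy => pop_zero_off D S.hK.isClosed S.he0 S.hu0 lam hy) hx
    rw [Pi.add_apply, hA.2 x h2, h1, add_zero]
  · exact fun r => by rw [hB]; linarith
  · rw [hB]; exact hδv.trans (le_add_of_nonneg_left (c.nonneg _).1)
  · exact fun r => by rw [hB]; have := (c.nonneg (k0 + r)).1; linarith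
  · refine ⟨fun r => ?_, mul_nonneg (mul_nonneg zero_le_two quad.opNorm_nonneg)
      (zero_le_one.trans (P.hβ 0))⟩
    obtain ⟨h1, h2, h3, h4⟩ := c.nonneg r
    have := P.hβ r
    exact ⟨h1, by positivity, by positivity, h2⟩
  · intro k v M hM hv s
    refine ⟨hv.1.smooth (hpos k), ?_⟩
    rw [show scale T0 k ^ (3 * s) = (scale T0 k ^ 3) ^ s from pow_mul _ _ _]
    exact c.gain s _ (one_le_pow₀ (hT1 k)) v M hM hv.1 fun x => by simpa using hv.2 0 le_rfl x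
  · intro k u hA hl hg N A hN hA0 hEr
    have S := P.stage hA hl hg N
    refine ⟨S.popSm, fun i hi x => ?_⟩
    obtain rfl := Nat.le_zero.1 hi
    rw [norm_iteratedFDeriv_zero]
    exact c.low N hN (hT1 k) S A hA0 hEr x
  · intro k u hA hl hg N
    have S := P.stage hA hl hg N
    refine ⟨S.popSm, ?_⟩
    have := c.high N S
    rwa [← pow_mul, show 2 * (N + D.L) = 2 * N + 2 * D.L by ring] at this
  · intro k v N M hN hM hv
    exact ⟨hv.1.sub (hv.1.smooth (hpos k)), c.approx N _ v M hN (hT1 k) hM hv.1 hv.2⟩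
  · intro k u hA hl hg a b ha hb h1 h2 x
    have S := P.stage hA hl hg 0
    refine step_est S Metric.isClosed_cthickening (stageSet_sub P.hT P.hρ k) P.hεU h2.1
      (fun y hy => ?_) ha hb h1.2 h2.2 x
    exact (stage_step P.hT k (fun z hz => pop_zero_off D S.hK.isClosed S.he0 S.hu0 lam hz)
      fun h => hy (stageSet_sub P.hT P.hρ (k + 1) h)).1

/-- Solution of a normalised problem. -/
theorem Problem.solve (P : Problem D k0 U K f e lam T0 ε δv β B) (c : Consts D) {Λ : ℝ}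
    (hΛ : 1 ≤ Λ) (hT : 8 * Λ ^ 5 ≤ T0) (hδ : 2 / T0 ≤ δv) (hδv : δv ≤ 1)
    (hB : ∀ r, B r = c.Cs (k0 + r) + 1)
    (hb : c.Cs 1 ≤ Λ ∧ c.Cs k0 ≤ Λ ∧ c.Cl (N0 D.L k0) * β (N0 D.L k0) ^ c.ml (N0 D.L k0) ≤ Λ ∧
      c.Cp (N0 D.L k0) * β (N0 D.L k0) ^ c.mp (N0 D.L k0) ≤ Λ ∧ c.Ca (N0 D.L k0) ≤ Λ ∧
      2 * ‖quad‖ * β 0 ≤ Λ)
    (h0 : ∀ x, ‖e x‖ ≤ 1 / T0 ^ (2 * j0 D.L k0)) :
    ∃ u : E2 → R4, ContDiff ℝ ∞ u ∧ (∀ x ∉ Metric.cthickening ε K, u x = 0) ∧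
      Bnd k0 u (2 / T0) ∧ ∀ x, res f e lam u x = 0 := by
  have hz : ∀ x, res f e lam 0 x = e x := fun x => by
    have : fderiv ℝ (0 : E2 → R4) x = 0 := by
      rw [show (0 : E2 → R4) = fun _ => 0 from rfl, fderiv_fun_const]; rfl
    simp [res, lin_eq, met_eq, this]
  obtain ⟨hiter, herr, hsum⟩ := converge (P.hyp c hδv hB) hΛ hT hδ hb
    (fun x => by rw [hz]; exact h0 x)
  set Pf := pop D f e lam
  set S : ℕ → (E2 → R4) → E2 → R4 := fun k v => smooth (scale T0 k ^ 3) v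
  obtain ⟨u, hu, hu0, hlim, hbnd⟩ := limit_series (fun k => S k (Pf (iter Pf S k))) (iter Pf S) rfl
    (fun k => rfl) (fun k => by
      obtain ⟨C, -, hC⟩ := hsum 0
      exact (hC k).1)
    (fun s => by obtain ⟨C, hC0, hC⟩ := hsum s; exact ⟨C, hC0, fun k => (hC k).2⟩)
    (Metric.cthickening ε K)
    (fun k x hx => (hiter k).1.2 x fun h => hx (stageSet_sub P.hT P.hρ k h))
  refine ⟨u, hu, hu0, hbnd k0 _ fun k => (hiter k).2.2, fun x => ?_⟩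
  have hconv : Tendsto (fun k => res f e lam (iter Pf S k) x) atTop (𝓝 (res f e lam u x)) := by
    simp only [res, lin_eq, met_eq]
    have h := hlim x
    exact ((tendsto_const_nhds.sub ((quad (fderiv ℝ f x)).continuous.tendsto _ |>.comp h)).sub
      ((((quad.continuous.clm_apply continuous_id).tendsto _).comp h).const_smul (1 / 2 : ℝ)
        |>.const_smul lam))
  obtain ⟨a, ha, hE⟩ := herr 1
  refine tendsto_nhds_unique hconv (squeeze_zero_norm (a := fun k => a * (1 / 2) ^ k)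
    (fun k => (hE k x).trans ?_) ?_)
  · rw [one_div_pow, mul_one_div]
    have h1 : (1 : ℝ) ≤ scale T0 k := by linarith [le_scale P.hT k, P.hT]
    refine div_le_div_of_nonneg_left ha (by positivity) ?_
    calc (2 : ℝ) ^ k ≤ T0 * 2 ^ k := le_mul_of_one_le_left (by positivity) (by linarith [P.hT])
      _ ≤ scale T0 k := scale_bound P.hT k
      _ ≤ _ := le_self_pow₀ h1 (by omega)
  · simpa using (tendsto_pow_atTop_nhds_zero_of_lt_one (by norm_num : (0 : ℝ) ≤ 1 / 2)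
      (by norm_num)).const_mul a

end Vale.Agent.P205F.NM
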