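import Vale.Agent.P205F.Interfaces
import Vale.Agent.P205F.NashMoser.Problem

/-!
# P205, Nash-Moser: the statement on the plane

The error is normalised by `lam = δ T0^(2 j0)`: the unknown `u` solves
`Lin f u + lam • met u = e` with `lam • e = g - met f`, so the change `lam • u` is linear in `δ`.
-/

namespace Vale.Agent.P205F.NM

open scoped ContDiff Topology
open Filter

set_option maxSynthPendingDepth 3

lemma bd_on_bounded {U : Set E2} (hU : Bornology.IsBounded U) {X : Type} [NormedAddCommGroup X]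
    [NormedSpace ℝ X] {f : E2 → X} (hf : ContDiff ℝ ∞ f) (i : ℕ) :
    ∃ M, ∀ x ∈ U, ‖iteratedFDeriv ℝ i f x‖ ≤ M := by
  obtain ⟨M, hM⟩ := hU.isCompact_closure.exists_bound_of_continuousOn
    (hf.continuous_iteratedFDeriv (by exact_mod_cast le_top : (i : WithTop ℕ∞) ≤ ∞)).continuousOn
  exact ⟨M, fun x hx => hM x (subset_closure hx)⟩

lemma smul_res {f : E2 → R4} {g : E2 → S3} {u : E2 → R4} (hf : ContDiff ℝ ∞ f)
    (hu : ContDiff ℝ ∞ u) {lam : ℝ} (hl : lam ≠ 0) (x : E2) :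
    lam • res f (lam⁻¹ • fun y => g y - met f y) lam u x = g x - met (f + lam • u) x := by
  have du := hu.differentiable (by norm_num) x
  rw [met_add (hf.differentiable (by norm_num) x) (du.const_smul lam)]
  simp only [res, lin_eq, met_eq, fderiv_const_smul du lam, Pi.smul_apply, map_smul, smul_apply,
    smul_sub, smul_smul, mul_inv_cancel₀ hl, one_smul, sub_add_eq_sub_sub]
  match_scalars <;> field_simp

/-- Growth constants for every level, equal to `b` up to the level `n0`. -/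
lemma exists_growth {L k0 n0 : ℕ} {U K : Set E2} {f : E2 → R4} {e : E2 → S3} {B : ℕ → ℝ}
    (hUb : Bornology.IsBounded U) (hK : IsCompact K) (hf : ContDiff ℝ ∞ f) (he : ContDiff ℝ ∞ e)
    (he0 : ∀ x ∉ K, e x = 0) (hB0 : ∀ r, 0 ≤ B r) {b : ℝ} (hb : 0 ≤ b)
    (hBb : ∀ i ≤ n0 + L, B i ≤ b)
    (hfb : ∀ i ≤ n0 + L + k0, ∀ x ∈ U, ‖iteratedFDeriv ℝ i f x‖ ≤ b)
    (heb : ∀ i ≤ n0 + L, ∀ x, ‖iteratedFDeriv ℝ i e x‖ ≤ b) :
    ∃ β : ℕ → ℝ, ∀ n, b ≤ β n ∧ (n ≤ n0 → β n = b) ∧ (∀ i ≤ n + L, B i ≤ β n) ∧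
      (∀ i ≤ n + L + k0, ∀ x ∈ U, ‖iteratedFDeriv ℝ i f x‖ ≤ β n) ∧
      (∀ i ≤ n + L, ∀ x, ‖iteratedFDeriv ℝ i e x‖ ≤ β n) := by
  choose bf hbf using fun i => bd_on_bounded hUb hf i
  choose be hbe using (sm_of_zero_off hK he he0).2
  refine ⟨fun n => if n ≤ n0 then b else
    b + ∑ i ∈ Finset.range (n + L + k0 + 1), (B i + |bf i| + |be i|), fun n => ?_⟩
  by_cases hn : n ≤ n0
  · simp only [hn, if_true]
    exact ⟨le_rfl, fun _ => trivial, fun i hi => hBb i (by omega), fun i hi => hfb i (by omega),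
      fun i hi => heb i (by omega)⟩
  simp only [hn, if_false]
  have hterm : ∀ j, 0 ≤ B j + |bf j| + |be j| := fun j => by have := hB0 j; positivity
  have hs : ∀ i, i ≤ n + L + k0 → B i + |bf i| + |be i| ≤
      ∑ j ∈ Finset.range (n + L + k0 + 1), (B j + |bf j| + |be j|) := fun i hi =>
    Finset.single_le_sum (f := fun j => B j + |bf j| + |be j|) (fun j _ => hterm j)
      (Finset.mem_range.2 (by omega))
  refine ⟨le_add_of_nonneg_right (Finset.sum_nonneg fun j _ => hterm j), fun h => h.elim,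
    fun i hi => ?_, fun i hi x hx => ?_, fun i hi x => ?_⟩
  · linarith [hs i (by omega), abs_nonneg (bf i), abs_nonneg (be i)]
  · linarith [hs i hi, hbf i x hx, le_abs_self (bf i), hB0 i, abs_nonneg (be i)]
  · linarith [hs i (by omega), hbe i x, le_abs_self (be i), hB0 i, abs_nonneg (bf i)]

/-- Stability of the denominator under small changes. -/
lemma den_stable (D : Inv) {Cd : ℝ} {ed : ℕ} (hCd0 : 0 ≤ Cd)
    (hCd : ∀ (z z' : Jet D.N) (b : ℝ), ‖z‖ ≤ b → ‖z'‖ ≤ b →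
      |D.den z' - D.den z| ≤ Cd * (1 + b) ^ ed * ‖z' - z‖)
    {k0 : ℕ} (hk0 : D.N ≤ k0) {U : Set E2} {f : E2 → R4} {Λ : ℝ} (hf : ContDiff ℝ ∞ f)
    (hΛ : 1 ≤ Λ) (hfB : BdOn f U k0 Λ) (hden : ∀ x ∈ U, Λ⁻¹ ≤ D.den (jet D.N f x))
    {a : ℝ} (ha : |a| ≤ 1) {u : E2 → R4} (hu : ContDiff ℝ ∞ u)
    (hub : Bnd k0 u (1 / (2 * (Cd + 1) * 3 ^ ed * Λ ^ (ed + 1)))) :
    ∀ x ∈ U, (2 * Λ)⁻¹ ≤ D.den (jet D.N (f + a • u) x) := by
  intro x hx
  have h3 : (1 : ℝ) ≤ 3 ^ ed := one_le_pow₀ (by norm_num)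
  have h4 : (1 : ℝ) ≤ Λ ^ (ed + 1) := one_le_pow₀ hΛ
  have hδ0 : (0 : ℝ) ≤ 1 / (2 * (Cd + 1) * 3 ^ ed * Λ ^ (ed + 1)) := by positivity
  have hδ1 : (1 : ℝ) / (2 * (Cd + 1) * 3 ^ ed * Λ ^ (ed + 1)) ≤ 1 := by
    rw [div_le_one (by positivity)]
    exact one_le_mul_of_one_le_of_one_le
      (one_le_mul_of_one_le_of_one_le (by linarith) h3) h4
  have hj := jet_sub_le D.N hf (smooth_smul hu a) (x := x) hδ0 fun i hi => by
    rw [iteratedFDeriv_const_smul_apply (hu.of_le (by exact_mod_cast le_top)).contDiffAt,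
      norm_smul, Real.norm_eq_abs]
    exact (mul_le_of_le_one_left (norm_nonneg _) ha).trans (hub i (hi.trans hk0) x)
  have hz0 : ‖jet D.N f x‖ ≤ Λ :=
    norm_jet_le _ (by linarith) fun i hi => hfB x hx i (hi.trans hk0)
  have hz' : ‖jet D.N (f + a • u) x‖ ≤ Λ + 1 := by
    have h1 := norm_add_le (jet D.N (f + a • u) x - jet D.N f x) (jet D.N f x)
    rw [sub_add_cancel] at h1
    linarith
  have hc := hCd _ _ _ (hz0.trans (by linarith)) hz'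
  have e1 : Cd * (1 + (Λ + 1)) ^ ed * ‖jet D.N (f + a • u) x - jet D.N f x‖ ≤ (2 * Λ)⁻¹ := by
    calc _ ≤ (Cd + 1) * (3 * Λ) ^ ed * (1 / (2 * (Cd + 1) * 3 ^ ed * Λ ^ (ed + 1))) := by
          gcongr
          · linarith
          · linarith
      _ = (2 * Λ)⁻¹ := by rw [mul_pow, pow_succ]; field_simp
  have e2 := (abs_le.1 (hc.trans e1)).1
  have e3 : Λ⁻¹ = (2 * Λ)⁻¹ + (2 * Λ)⁻¹ := by field_simp; norm_num
  linarith [hden x hx]

/-- The exponents and constants that depend only on the operator. -/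
lemma threshold (D : Inv) (k0 : ℕ) (c : Consts D) : ∃ (cB cA : ℝ) (eA : ℕ), 2 ≤ cB ∧ 1 ≤ cA ∧
    1 ≤ eA ∧ (∀ i ≤ N0 D.L k0 + D.L, c.Cs (k0 + i) + 1 ≤ cB) ∧
    ∀ Λ : ℝ, 1 ≤ Λ → 1 ≤ cA * Λ ^ eA ∧ c.Cs 1 ≤ cA * Λ ^ eA ∧ c.Cs k0 ≤ cA * Λ ^ eA ∧
      c.Cl (N0 D.L k0) * (cB * Λ) ^ c.ml (N0 D.L k0) ≤ cA * Λ ^ eA ∧
      c.Cp (N0 D.L k0) * (cB * Λ) ^ c.mp (N0 D.L k0) ≤ cA * Λ ^ eA ∧
      c.Ca (N0 D.L k0) ≤ cA * Λ ^ eA ∧ 2 * ‖quad‖ * (cB * Λ) ≤ cA * Λ ^ eA := by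
  set n0 := N0 D.L k0
  obtain ⟨hs1, -, -, -⟩ := c.nonneg 1
  obtain ⟨hsk, -, -, -⟩ := c.nonneg k0
  obtain ⟨-, ha, hl, hp⟩ := c.nonneg n0
  have hBnn : ∀ r, 0 ≤ c.Cs (k0 + r) + 1 := fun r => by
    have := (c.nonneg (k0 + r)).1; linarith
  set cB : ℝ := 2 + ∑ r ∈ Finset.range (n0 + D.L + 1), (c.Cs (k0 + r) + 1) with hcB
  have hcB2 : 2 ≤ cB := le_add_of_nonneg_right (Finset.sum_nonneg fun r _ => hBnn r)
  have hq : (0 : ℝ) ≤ ‖quad‖ := quad.opNorm_nonneg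
  set cA : ℝ := 1 + c.Cs 1 + c.Cs k0 + c.Cl n0 * cB ^ c.ml n0 + c.Cp n0 * cB ^ c.mp n0 + c.Ca n0 +
    2 * ‖quad‖ * cB with hcA
  have h1 : 0 ≤ c.Cl n0 * cB ^ c.ml n0 := by positivity
  have h2 : 0 ≤ c.Cp n0 * cB ^ c.mp n0 := by positivity
  have h3 : 0 ≤ 2 * ‖quad‖ * cB := by positivity
  refine ⟨cB, cA, 1 + c.ml n0 + c.mp n0, hcB2, by linarith, by omega, fun i hi => ?_,
    fun Λ hΛ => ?_⟩
  · have := Finset.single_le_sum (f := fun r => c.Cs (k0 + r) + 1) (fun r _ => hBnn r)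
      (Finset.mem_range.2 (show i < n0 + D.L + 1 by omega))
    linarith
  have hone : ∀ {a : ℝ}, a ≤ cA → a ≤ cA * Λ ^ (1 + c.ml n0 + c.mp n0) := fun h =>
    h.trans (le_mul_of_one_le_right (by linarith) (one_le_pow₀ hΛ))
  have hpw : ∀ {a : ℝ} {m : ℕ}, a * cB ^ m ≤ cA → m ≤ 1 + c.ml n0 + c.mp n0 →
      a * (cB * Λ) ^ m ≤ cA * Λ ^ (1 + c.ml n0 + c.mp n0) := fun h hm => by
    rw [mul_pow, ← mul_assoc]
    exact mul_le_mul h (pow_le_pow_right₀ hΛ hm) (by positivity) (by linarith)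
  refine ⟨hone (by linarith), hone (by linarith), hone (by linarith), hpw (by linarith) (by omega),
    hpw (by linarith) (by omega), hone (by linarith), ?_⟩
  have := hpw (a := 2 * ‖quad‖) (m := 1) (by rw [pow_one]; linarith) (by omega)
  rwa [pow_one] at this

/-- The case of a positive error bound. -/
lemma solve_pos (D : Inv) {k0 : ℕ} (hk0 : max D.N 1 ≤ k0) (c : Consts D) {Cd : ℝ} {ed : ℕ}
    (hCd0 : 0 ≤ Cd)
    (hCd : ∀ (z z' : Jet D.N) (b : ℝ), ‖z‖ ≤ b → ‖z'‖ ≤ b →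
      |D.den z' - D.den z| ≤ Cd * (1 + b) ^ ed * ‖z' - z‖)
    {cB cA : ℝ} {eA : ℕ} (hcB : 2 ≤ cB) (_hcA : 1 ≤ cA)
    (hcBi : ∀ i ≤ N0 D.L k0 + D.L, c.Cs (k0 + i) + 1 ≤ cB)
    {U K : Set E2} (hU : IsOpen U) (hUb : Bornology.IsBounded U) (hK : IsCompact K) {ε : ℝ}
    (hεU : Metric.cthickening ε K ⊆ U)
    {f : E2 → R4} {e : E2 → S3} {Λ T0 lam : ℝ} (hΛ : 1 ≤ Λ) (hf : ContDiff ℝ ∞ f)
    (he : ContDiff ℝ ∞ e) (he0 : ∀ x ∉ K, e x = 0) (hlam : |lam| ≤ 1)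
    (hfB : BdOn f U (N0 D.L k0 + D.L + k0) Λ) (hden : ∀ x ∈ U, Λ⁻¹ ≤ D.den (jet D.N f x))
    (hT : 4 ≤ T0) (hρ : 4 / T0 ≤ ε) (hTA : 8 * (cA * Λ ^ eA) ^ 5 ≤ T0)
    (hTδ : 2 / T0 ≤ 1 / (2 * (Cd + 1) * 3 ^ ed * Λ ^ (ed + 1)))
    (hek : ∀ i ≤ N0 D.L k0 + D.L, ∀ x, ‖iteratedFDeriv ℝ i e x‖ ≤ 1 / T0 ^ (2 * j0 D.L k0))
    (hb : 1 ≤ cA * Λ ^ eA ∧ c.Cs 1 ≤ cA * Λ ^ eA ∧ c.Cs k0 ≤ cA * Λ ^ eA ∧
      c.Cl (N0 D.L k0) * (cB * Λ) ^ c.ml (N0 D.L k0) ≤ cA * Λ ^ eA ∧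
      c.Cp (N0 D.L k0) * (cB * Λ) ^ c.mp (N0 D.L k0) ≤ cA * Λ ^ eA ∧
      c.Ca (N0 D.L k0) ≤ cA * Λ ^ eA ∧ 2 * ‖quad‖ * (cB * Λ) ≤ cA * Λ ^ eA) :
    ∃ u : E2 → R4, ContDiff ℝ ∞ u ∧ (∀ x ∉ Metric.cthickening ε K, u x = 0) ∧
      Bnd k0 u (2 / T0) ∧ (∀ x, res f e lam u x = 0) ∧
      ∀ x ∈ U, (2 * Λ)⁻¹ ≤ D.den (jet D.N (f + lam • u) x) := by
  have h2 : (2 : ℝ) ≤ cB * Λ := hcB.trans (le_mul_of_one_le_right (by linarith) hΛ)
  obtain ⟨β, hβ⟩ := exists_growth (L := D.L) (k0 := k0) (n0 := N0 D.L k0)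
    (B := fun r => c.Cs (k0 + r) + 1) hUb hK hf he he0
    (fun r => by have := (c.nonneg (k0 + r)).1; linarith) (b := cB * Λ) (by linarith)
    (fun i hi => (hcBi i hi).trans (le_mul_of_one_le_right (by linarith) hΛ))
    (fun i hi x hx => (hfB x hx i hi).trans (le_mul_of_one_le_left (by linarith) (by linarith)))
    (fun i hi x => (hek i hi x).trans (by
      refine le_trans ?_ (one_le_two.trans h2)
      rw [div_le_one (pow_pos (by linarith) _)]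
      exact one_le_pow₀ (by linarith)))
  have hfB0 : BdOn f U k0 Λ := fun x hx i hi => hfB x hx i (by omega)
  have hδ1 : (1 : ℝ) / (2 * (Cd + 1) * 3 ^ ed * Λ ^ (ed + 1)) ≤ 1 := by
    rw [div_le_one (by positivity)]
    exact one_le_mul_of_one_le_of_one_le (one_le_mul_of_one_le_of_one_le (by linarith)
      (one_le_pow₀ (by norm_num))) (one_le_pow₀ hΛ)
  have hstab := fun (u : E2 → R4) hu hub => den_stable D hCd0 hCd
    ((le_max_left _ _).trans hk0) hf hΛ hfB0 hden hlam (u := u) hu hub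
  have hP : Problem D k0 U K f e lam T0 ε (1 / (2 * (Cd + 1) * 3 ^ ed * Λ ^ (ed + 1))) β
      (fun r => c.Cs (k0 + r) + 1) :=
    ⟨hk0, hU, hK, hεU, hT, hρ, hf, he, he0, hlam,
      fun n => le_trans (by linarith) (hβ n).1,
      fun u hu hub n x hx => le_trans (inv_anti₀ (by linarith) ((mul_le_mul_of_nonneg_right hcB
        (by linarith)).trans (hβ n).1)) (hstab u hu hub x hx),
      fun n => (hβ n).2.2.1, fun n => (hβ n).2.2.2.1, fun n => (hβ n).2.2.2.2⟩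
  have hb' := hb
  rw [← (hβ (N0 D.L k0)).2.1 le_rfl] at hb
  obtain ⟨b1, b2, b3, b4, b5, b6, -⟩ := hb
  obtain ⟨u, hu, hu0, hub, hres⟩ := hP.solve c b1 hTA hTδ hδ1 (fun r => rfl)
    ⟨b2, b3, b4, b5, b6, by rw [(hβ 0).2.1 (Nat.zero_le _)]; exact hb'.2.2.2.2.2.2⟩
    (fun x => by simpa using hek 0 (Nat.zero_le _) x)
  exact ⟨u, hu, hu0, hub, hres, hstab u hu fun i hi x => (hub i hi x).trans hTδ⟩

/-- Nash-Moser for `met`: the exact statement of the interface. -/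
theorem nmStmt : NMStmt := by
  intro D k'
  obtain ⟨c⟩ := exists_consts D
  obtain ⟨Cd, ed, hCd0, hCd⟩ := den_lip D
  set k0 := max (max D.N k') 1 with hk0
  obtain ⟨cB, cA, eA, hcB, hcA, heA, hcBi, hb⟩ := threshold D k0 c
  set J := j0 D.L k0
  set p : ℕ := 5 * eA + ed + 2 with hp
  refine ⟨N0 D.L k0 + D.L + k0, p * (2 * J) + 1, fun U K hU hUb hK hKU => ?_⟩
  obtain ⟨ε, hε, hεU⟩ := hK.exists_cthickening_subset_open hU hKU
  set cT : ℝ := 8 * cA ^ 5 + 4 * (Cd + 1) * 3 ^ ed + 5 / ε + 4 with hcT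
  have hcA5 : 0 ≤ cA ^ 5 := pow_nonneg (by linarith) 5
  have hcd3 : 0 ≤ 4 * (Cd + 1) * 3 ^ ed := by positivity
  have hε5 : 0 < 5 / ε := by positivity
  have hcT4 : 4 ≤ cT := by linarith
  refine ⟨cT ^ (2 * J), fun f g Λ δ hf hg hΛ hδ hfB hden hsupp heB hsmall => ?_⟩
  have herr : ∀ x ∉ K, g x - met f x = 0 := fun x hx =>
    image_eq_zero_of_notMem_tsupport (f := fun x => g x - met f x) fun h => hx (hsupp h)
  rcases hδ.eq_or_lt with h0 | hδpos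
  · refine ⟨f, hf, ⟨K, hK, hKU, fun _ _ => rfl⟩, fun x => ?_, fun x _ i _ => ?_, fun x hx => ?_⟩
    · refine (sub_eq_zero.1 ?_).symm
      by_cases hx : x ∈ K
      · have := heB x (hKU hx) 0 (Nat.zero_le _)
        rw [norm_iteratedFDeriv_zero, ← h0, norm_le_zero_iff] at this
        exact this
      · exact herr x hx
    · simp [← h0]
    · refine le_trans ?_ (hden x hx)
      rw [mul_inv]
      exact mul_le_of_le_one_left (by positivity) (by norm_num)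
  set T0 : ℝ := cT * Λ ^ p with hT0
  have hΛp : ∀ {a : ℕ}, a ≤ p → Λ ^ a ≤ Λ ^ p := fun h => pow_le_pow_right₀ hΛ h
  have hT0c : cT ≤ T0 := le_mul_of_one_le_right (by linarith) (one_le_pow₀ hΛ)
  have hT04 : 4 ≤ T0 := hcT4.trans hT0c
  set lam : ℝ := δ * T0 ^ (2 * J) with hlam
  have hlam0 : 0 < lam := mul_pos hδpos (pow_pos (by linarith) _)
  have hlamC : lam ≤ cT ^ (2 * J) * Λ ^ (p * (2 * J) + 1) * δ := by
    rw [hlam, hT0, mul_pow, ← pow_mul, mul_comm δ]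
    gcongr
    exact Nat.le_succ _
  have hes : ContDiff ℝ ∞ (lam⁻¹ • fun y => g y - met f y) :=
    (hg.sub (smooth_met hf)).const_smul lam⁻¹
  obtain ⟨u, hu, hu0, hub, hres, hden'⟩ := solve_pos D (k0 := k0) (by omega) c hCd0 hCd hcB hcA
    hcBi hU hUb hK hεU (e := lam⁻¹ • fun y => g y - met f y) (T0 := T0) (lam := lam) hΛ hf hes
    (fun x hx => by simp [herr x hx]) ((abs_of_pos hlam0).le.trans (hlamC.trans hsmall)) hfB hden
    hT04 (by
      rw [div_le_iff₀ (by linarith)]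
      have e5 : ε * (5 / ε) = 5 := by field_simp
      have h1 : ε * (5 / ε) ≤ ε * cT := mul_le_mul_of_nonneg_left (by linarith) hε.le
      have h2 : ε * cT ≤ ε * T0 := mul_le_mul_of_nonneg_left hT0c hε.le
      linarith)
    (by
      rw [mul_pow, ← pow_mul, ← mul_assoc, hT0]
      exact mul_le_mul (by linarith) (hΛp (by omega)) (by positivity) (by linarith))
    (by
      rw [div_le_div_iff₀ (by linarith) (by positivity), one_mul, hT0]
      calc 2 * (2 * (Cd + 1) * 3 ^ ed * Λ ^ (ed + 1))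
          = 4 * (Cd + 1) * 3 ^ ed * Λ ^ (ed + 1) := by ring
        _ ≤ cT * Λ ^ p := mul_le_mul (by linarith) (hΛp (by omega)) (by positivity) (by linarith))
    (fun i hi x => by
      by_cases hx : x ∈ U
      · have hsd : ContDiff ℝ (i : WithTop ℕ∞) fun y => g y - met f y :=
          (hg.sub (smooth_met hf)).of_le (by exact_mod_cast le_top)
        rw [iteratedFDeriv_const_smul_apply hsd.contDiffAt, norm_smul, Real.norm_eq_abs,
          abs_of_pos (inv_pos.2 hlam0)]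
        refine (mul_le_mul_of_nonneg_left (heB x hx i (by omega)) (by positivity)).trans
          (le_of_eq ?_)
        rw [hlam]; field_simp; rfl
      · rw [iterated_zero_off hK.isClosed (fun y hy => by simp [herr y hy])
          (fun h => hx (hKU h)) i, norm_zero]
        positivity)
    (hb Λ hΛ)
  refine ⟨f + lam • u, hf.add (smooth_smul hu lam),
    ⟨Metric.cthickening ε K, hK.cthickening, hεU, fun x hx => by simp [hu0 x hx]⟩,
    fun x => ?_, fun x _ i hi => ?_, hden'⟩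
  · have := smul_res (g := g) hf hu hlam0.ne' x
    rw [hres, smul_zero] at this
    exact (sub_eq_zero.1 this.symm).symm
  · rw [show (fun y => (f + lam • u) y - f y) = lam • u from funext fun y => add_sub_cancel_left _ _,
      iteratedFDeriv_const_smul_apply (hu.of_le (by exact_mod_cast le_top)).contDiffAt, norm_smul,
      Real.norm_eq_abs, abs_of_pos hlam0]
    refine le_trans ?_ hlamC
    refine mul_le_of_le_one_right hlam0.le ((hub i (by omega) x).trans ?_)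
    rw [div_le_one (by linarith)]; linarith

end Vale.Agent.P205F.NM
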