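import Vale.Agent.P205F.NashMoser.Smooth

/-!
# P205, Nash-Moser: derivative bounds for compositions with jets

Growth at scale `Θ`: the `i`-th derivative is at most `β Θ^i`. It is stable under composition,
bilinear operations and jets, with constants polynomial in `β`.
-/

namespace Vale.Agent.P205F.NM

open scoped ContDiff

set_option maxSynthPendingDepth 3

variable {X Y Z : Type} [NormedAddCommGroup X] [NormedSpace ℝ X] [NormedAddCommGroup Y]
  [NormedSpace ℝ Y] [NormedAddCommGroup Z] [NormedSpace ℝ Z]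

/-- Growth at scale `Θ` up to order `n` at the point `x`, with constant `β`. -/
def Grow (n : ℕ) (u : E2 → X) (β Θ : ℝ) (x : E2) : Prop :=
  ∀ i ≤ n, ‖iteratedFDeriv ℝ i u x‖ ≤ β * Θ ^ i

lemma norm_iterated_iterated (k : ℕ) : ∀ (i : ℕ) {X : Type} [NormedAddCommGroup X]
    [NormedSpace ℝ X] (u : E2 → X) (x : E2),
    ‖iteratedFDeriv ℝ i (iteratedFDeriv ℝ k u) x‖ = ‖iteratedFDeriv ℝ (i + k) u x‖ := by
  induction k with
  | zero =>
    intro i X _ _ u x
    rw [iteratedFDeriv_zero_eq_comp]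
    exact (continuousMultilinearCurryFin0 ℝ E2 X).symm.norm_iteratedFDeriv_comp_left u x i
  | succ k ih =>
    intro i X _ _ u x
    have e : iteratedFDeriv ℝ (k + 1) u =
        (continuousMultilinearCurryRightEquiv' ℝ k E2 X).symm ∘
          iteratedFDeriv ℝ k (fun y => fderiv ℝ u y) :=
      funext fun y => iteratedFDeriv_succ_eq_comp_right
    rw [e, LinearIsometryEquiv.norm_iteratedFDeriv_comp_left, ih,
      norm_iteratedFDeriv_fderiv, Nat.add_assoc]

lemma norm_jet_le (N : ℕ) {f : E2 → R4} {x : E2} {b : ℝ} (hb : 0 ≤ b)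
    (h : ∀ i ≤ N, ‖iteratedFDeriv ℝ i f x‖ ≤ b) : ‖jet N f x‖ ≤ b :=
  (pi_norm_le_iff_of_nonneg hb).2 fun k => h k (Nat.lt_succ_iff.1 k.2)

lemma jet_sub_le (N : ℕ) {f v : E2 → R4} (hf : ContDiff ℝ ∞ f) (hv : ContDiff ℝ ∞ v) {x : E2}
    {b : ℝ} (hb : 0 ≤ b) (h : ∀ i ≤ N, ‖iteratedFDeriv ℝ i v x‖ ≤ b) :
    ‖jet N (f + v) x - jet N f x‖ ≤ b := by
  refine (pi_norm_le_iff_of_nonneg hb).2 fun k => ?_
  simp only [jet, Pi.sub_apply]
  rw [iteratedFDeriv_add_apply (hf.of_le (by exact_mod_cast le_top)).contDiffAt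
    (hv.of_le (by exact_mod_cast le_top)).contDiffAt, add_sub_cancel_left]
  exact h k (Nat.lt_succ_iff.1 k.2)

lemma contDiff_jet (N : ℕ) {f : E2 → R4} (hf : ContDiff ℝ ∞ f) : ContDiff ℝ ∞ (jet N f) :=
  contDiff_pi.2 fun _ => hf.iteratedFDeriv_right (by exact_mod_cast le_top)

lemma norm_jet_deriv_le (N : ℕ) {f : E2 → R4} (hf : ContDiff ℝ ∞ f) (i : ℕ) {x : E2} {b : ℝ}
    (h : ∀ k ≤ N, ‖iteratedFDeriv ℝ (i + k) f x‖ ≤ b) :
    ‖iteratedFDeriv ℝ i (jet N f) x‖ ≤ (N + 1) * b := by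
  have hs : ∀ k : Fin (N + 1), ContDiff ℝ ∞ (iteratedFDeriv ℝ (k : ℕ) f) := fun k =>
    hf.iteratedFDeriv_right (by exact_mod_cast le_top)
  let J : (k : Fin (N + 1)) → ContinuousMultilinearMap ℝ (fun _ : Fin (k : ℕ) => E2) R4 →L[ℝ] Jet N :=
    fun k => ContinuousLinearMap.single ℝ
      (fun j : Fin (N + 1) => ContinuousMultilinearMap ℝ (fun _ : Fin (j : ℕ) => E2) R4) k
  have he : jet N f = fun y => ∑ k, J k (iteratedFDeriv ℝ (k : ℕ) f y) := by
    funext y; exact (Finset.univ_sum_single (jet N f y)).symm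
  have he' : jet N f = ∑ k, fun y => J k (iteratedFDeriv ℝ (k : ℕ) f y) := by
    rw [he]; funext y; simp
  rw [he', iteratedFDeriv_sum_apply (f := fun k y => J k (iteratedFDeriv ℝ (k : ℕ) f y))
    fun k _ => (((J k).contDiff.comp (hs k)).of_le (by exact_mod_cast le_top)).contDiffAt]
  refine (norm_sum_le _ _).trans ?_
  refine (Finset.sum_le_card_nsmul _ _ b fun k _ => ?_).trans (by simp)
  refine ((J k).norm_iteratedFDeriv_comp_left (hs k).contDiffAt (by exact_mod_cast le_top)).trans ?_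
  rw [norm_iterated_iterated]
  refine (mul_le_of_le_one_left (norm_nonneg _) (ContinuousLinearMap.opNorm_le_bound _ zero_le_one
    fun z => ?_)).trans (h k (Nat.lt_succ_iff.1 k.2))
  simp [J, Pi.norm_single]

/-- Composition on open sets: constants polynomial in the growth constant. -/
lemma norm_comp_le {U : Set E2} (hU : IsOpen U) {O : Set X} (hO : IsOpen O) {g : X → Y}
    (hg : ContDiffOn ℝ ∞ g O) {w : E2 → X} (hw : ContDiffOn ℝ ∞ w U) (hmap : Set.MapsTo w U O)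
    {x : E2} (hx : x ∈ U) {n : ℕ} {Cg β Θ : ℝ} (hβ : 1 ≤ β) (hΘ : 1 ≤ Θ)
    (hC : ∀ i ≤ n, ‖iteratedFDeriv ℝ i g (w x)‖ ≤ Cg) (hD : Grow n w β Θ x) :
    ‖iteratedFDeriv ℝ n (g ∘ w) x‖ ≤ n.factorial * Cg * β ^ n * Θ ^ n := by
  rw [← iteratedFDerivWithin_of_isOpen n hU hx]
  have := norm_iteratedFDerivWithin_comp_le (𝕜 := ℝ) hg hw (n := n) (by exact_mod_cast le_top)
    hO.uniqueDiffOn hU.uniqueDiffOn hmap hx (C := Cg) (D := β * Θ)
    (fun i hi => by rw [iteratedFDerivWithin_of_isOpen i hO (hmap hx)]; exact hC i hi)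
    (fun i h1 hi => by
      rw [iteratedFDerivWithin_of_isOpen i hU hx, mul_pow]
      refine (hD i hi).trans ?_
      gcongr
      exact le_self_pow₀ hβ (by omega))
  rw [mul_pow, ← mul_assoc] at this
  exact this

/-- Bilinear operations on an open set. -/
lemma norm_bilin_le {U : Set E2} (hU : IsOpen U) (B : X →L[ℝ] Y →L[ℝ] Z) {u : E2 → X}
    {v : E2 → Y} (hu : ContDiffOn ℝ ∞ u U) (hv : ContDiffOn ℝ ∞ v U) {x : E2} (hx : x ∈ U)
    {n : ℕ} {a b Θ : ℝ} (ha : Grow n u a Θ x) (hb : Grow n v b Θ x) :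
    ‖iteratedFDeriv ℝ n (fun y => B (u y) (v y)) x‖ ≤ ‖B‖ * 2 ^ n * (a * b) * Θ ^ n := by
  rw [← iteratedFDerivWithin_of_isOpen n hU hx]
  refine (B.norm_iteratedFDerivWithin_le_of_bilinear hu hv hU.uniqueDiffOn hx
    (by exact_mod_cast le_top)).trans ?_
  rw [mul_assoc, mul_assoc, mul_assoc]
  refine mul_le_mul_of_nonneg_left ?_ B.opNorm_nonneg
  calc ∑ i ∈ Finset.range (n + 1), (n.choose i : ℝ) * ‖iteratedFDerivWithin ℝ i u U x‖ *
        ‖iteratedFDerivWithin ℝ (n - i) v U x‖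
      ≤ ∑ i ∈ Finset.range (n + 1), (n.choose i : ℝ) * (a * b * Θ ^ n) := by
        refine Finset.sum_le_sum fun i hi => ?_
        have hi' : i ≤ n := Nat.lt_succ_iff.1 (Finset.mem_range.1 hi)
        rw [iteratedFDerivWithin_of_isOpen i hU hx, iteratedFDerivWithin_of_isOpen _ hU hx]
        calc (n.choose i : ℝ) * ‖iteratedFDeriv ℝ i u x‖ * ‖iteratedFDeriv ℝ (n - i) v x‖
            ≤ (n.choose i : ℝ) * (a * Θ ^ i) * (b * Θ ^ (n - i)) := by
              refine mul_le_mul (mul_le_mul_of_nonneg_left (ha i hi') (Nat.cast_nonneg _))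
                (hb (n - i) (n.sub_le i)) (norm_nonneg _) ?_
              exact mul_nonneg (Nat.cast_nonneg _) ((norm_nonneg _).trans (ha i hi'))
          _ = _ := by
              rw [show Θ ^ n = Θ ^ i * Θ ^ (n - i) by rw [← pow_add]; congr 1; omega]; ring
    _ = _ := by
        rw [← Finset.sum_mul, show ∑ i ∈ Finset.range (n + 1), (n.choose i : ℝ) = 2 ^ n by
          exact_mod_cast Nat.sum_range_choose n]
        ring

/-- The coefficients evaluated along a jet: growth at scale `Θ`, polynomial in `β`. -/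
lemma coef_grow (D : Inv) (k : Fin (D.L + 1)) (n : ℕ) : ∃ (C : ℝ) (e : ℕ), 0 ≤ C ∧
    ∀ (U : Set E2) (F : E2 → R4) (β Θ : ℝ), IsOpen U → ContDiff ℝ ∞ F → 1 ≤ β → 1 ≤ Θ →
      (∀ y ∈ U, 0 < D.den (jet D.N F y)) → ∀ x ∈ U, β⁻¹ ≤ D.den (jet D.N F x) →
      (∀ i ≤ D.N, ‖iteratedFDeriv ℝ i F x‖ ≤ β) →
      (∀ i ≤ n, ∀ l ≤ D.N, ‖iteratedFDeriv ℝ (i + l) F x‖ ≤ β * Θ ^ i) →
      Grow n (fun y => D.coef k (jet D.N F y)) (C * β ^ e) Θ x := by
  choose c e hc using fun j => D.coef_bound k j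
  set E := ∑ j ∈ Finset.range (n + 1), e j
  set C0 := ∑ j ∈ Finset.range (n + 1), |c j|
  refine ⟨n.factorial * C0 * 3 ^ E * ((D.N : ℝ) + 1) ^ n, E + n, by positivity,
    fun U F β Θ hU hF hβ hΘ hpos x hx hden hlow hgr i hi => ?_⟩
  have hO : IsOpen {z | 0 < D.den z} := isOpen_lt continuous_const D.den_smooth.continuous
  have hg : ∀ j ≤ n, ‖iteratedFDeriv ℝ j (D.coef k) (jet D.N F x)‖ ≤ C0 * (3 * β) ^ E := by
    intro j hj
    refine (hc j _ (hpos x hx)).trans ?_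
    have h1 : ‖jet D.N F x‖ ≤ β := norm_jet_le _ (by linarith) hlow
    have h2 : (D.den (jet D.N F x))⁻¹ ≤ β := by
      rw [inv_le_comm₀ (hpos x hx) (by linarith)]; exact hden
    have h3 : 0 ≤ (D.den (jet D.N F x))⁻¹ := by have := hpos x hx; positivity
    calc c j * (1 + ‖jet D.N F x‖ + (D.den (jet D.N F x))⁻¹) ^ e j
        ≤ |c j| * (3 * β) ^ e j := by
          refine mul_le_mul (le_abs_self _) ?_ (by positivity) (abs_nonneg _)
          gcongr; linarith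
      _ ≤ C0 * (3 * β) ^ E := by
          refine mul_le_mul (Finset.single_le_sum (f := fun j => |c j|) (fun l _ => abs_nonneg _)
            (Finset.mem_range.2 (by omega))) (pow_le_pow_right₀ (by linarith)
            (Finset.single_le_sum (f := e) (fun l _ => Nat.zero_le _)
              (Finset.mem_range.2 (by omega)))) (by positivity) (by positivity)
  have hN1 : (1 : ℝ) ≤ ((D.N : ℝ) + 1) * β := by nlinarith [(Nat.cast_nonneg D.N : (0:ℝ) ≤ _)]
  have key := norm_comp_le hU hO (D.coef_smooth k) (contDiff_jet D.N hF).contDiffOn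
    (fun y hy => hpos y hy) hx (n := i) (β := ((D.N : ℝ) + 1) * β) hN1 hΘ
    (fun j hj => hg j (hj.trans hi)) (fun j hj => by
      rw [mul_assoc]
      exact norm_jet_deriv_le D.N hF j (fun l hl => hgr j (hj.trans hi) l hl))
  refine key.trans ?_
  calc (i.factorial : ℝ) * (C0 * (3 * β) ^ E) * (((D.N : ℝ) + 1) * β) ^ i * Θ ^ i
      ≤ (n.factorial : ℝ) * (C0 * (3 * β) ^ E) * (((D.N : ℝ) + 1) * β) ^ n * Θ ^ i := by
        gcongr
    _ = _ := by rw [mul_pow, mul_pow, pow_add]; ring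

/-- The denominator is Lipschitz on bounded sets of jets, with polynomial constant. -/
lemma den_lip (D : Inv) : ∃ (C : ℝ) (e : ℕ), 0 ≤ C ∧ ∀ (z z' : Jet D.N) (b : ℝ),
    ‖z‖ ≤ b → ‖z'‖ ≤ b → |D.den z' - D.den z| ≤ C * (1 + b) ^ e * ‖z' - z‖ := by
  obtain ⟨C, e, hC⟩ := D.den_bound 1
  refine ⟨|C|, e, abs_nonneg _, fun z z' b hz hz' => ?_⟩
  have := (convex_closedBall (0 : Jet D.N) b).norm_image_sub_le_of_norm_hasFDerivWithin_le
    (𝕜 := ℝ) (f := D.den) (f' := fun w => fderiv ℝ D.den w) (C := |C| * (1 + b) ^ e)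
    (fun w _ => (D.den_smooth.differentiable (by norm_num) w).hasFDerivAt.hasFDerivWithinAt)
    (fun w hw => by
      rw [← norm_iteratedFDeriv_one]
      refine (hC w).trans (mul_le_mul (le_abs_self _) ?_ (by positivity) (abs_nonneg _))
      rw [mem_closedBall_zero_iff] at hw
      gcongr)
    (by simpa using hz) (by simpa using hz')
  simpa [Real.norm_eq_abs] using this

/-- The bilinear form behind `met` and `Lin`. -/
noncomputable def quad : (E2 →L[ℝ] R4) →L[ℝ] (E2 →L[ℝ] R4) →L[ℝ] S3 :=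
  let a : Fin 2 → (E2 →L[ℝ] R4) →L[ℝ] R4 := fun i => ContinuousLinearMap.apply ℝ R4 (ev i)
  let P : Fin 2 → Fin 2 → (E2 →L[ℝ] R4) →L[ℝ] (E2 →L[ℝ] R4) →L[ℝ] ℝ :=
    fun i j => (innerSL ℝ : R4 →L[ℝ] R4 →L[ℝ] ℝ).bilinearComp (a i) (a j)
  let e : Fin 3 → ℝ →L[ℝ] S3 := fun i => ContinuousLinearMap.single ℝ (fun _ : Fin 3 => ℝ) i
  let post : Fin 3 → ((E2 →L[ℝ] R4) →L[ℝ] ℝ) →L[ℝ] ((E2 →L[ℝ] R4) →L[ℝ] S3) :=
    fun i => ContinuousLinearMap.compL ℝ (E2 →L[ℝ] R4) ℝ S3 (e i)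
  (2 : ℝ) • (post 0).comp (P 0 0) + (post 1).comp (P 0 1 + P 1 0) + (2 : ℝ) • (post 2).comp (P 1 1)

lemma lin_eq (f w : E2 → R4) (x : E2) : Lin f w x = quad (fderiv ℝ f x) (fderiv ℝ w x) := by
  ext i
  fin_cases i <;> simp [quad, Lin, pd]

lemma met_eq (f : E2 → R4) (x : E2) :
    met f x = (1 / 2 : ℝ) • quad (fderiv ℝ f x) (fderiv ℝ f x) := by
  ext i
  fin_cases i <;> simp [quad, met, pd, real_inner_comm]
  ring

lemma met_add {f w : E2 → R4} {x : E2} (hf : DifferentiableAt ℝ f x)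
    (hw : DifferentiableAt ℝ w x) : met (f + w) x = met f x + Lin f w x + met w x := by
  ext i
  fin_cases i <;>
    simp [met, Lin, pd, fderiv_add hf hw, inner_add_left, inner_add_right, norm_add_sq_real,
      real_inner_comm] <;>
    ring

end Vale.Agent.P205F.NM
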