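import Mathlib

/-!
# P205, Nash-Moser: the iteration, abstractly

`u (k+1) = u k + S k (P (u k))`, where `P u` stands for the right inverse applied to the error of
`u` and `S k` smooths at scale `(T k)^3`. The growth scale at stage `k` is `(T k)^2`. No tame
estimate is needed: high norms are controlled by the smoothing alone.
-/

namespace Vale.Agent.P205F.NM

open Real

/-- The scales: `T (k+1) ^ 2 = T k ^ 3`. -/
noncomputable def scale (T0 : ℝ) : ℕ → ℝ
  | 0 => T0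
  | k + 1 => scale T0 k * √(scale T0 k)

lemma scale_bound {T0 : ℝ} (h : 4 ≤ T0) : ∀ k, T0 * 2 ^ k ≤ scale T0 k
  | 0 => by simp [scale]
  | k + 1 => by
      have h1 := scale_bound h k
      have h2 : (4 : ℝ) ≤ scale T0 k := by
        have : (1 : ℝ) ≤ 2 ^ k := one_le_pow₀ (by norm_num)
        nlinarith
      have h3 : (2 : ℝ) ≤ √(scale T0 k) := by
        rw [Real.le_sqrt (by norm_num) (by linarith)]; linarith
      simp only [scale]
      calc T0 * 2 ^ (k + 1) = T0 * 2 ^ k * 2 := by ring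
        _ ≤ scale T0 k * √(scale T0 k) := by gcongr

lemma le_scale {T0 : ℝ} (h : 4 ≤ T0) (k : ℕ) : T0 ≤ scale T0 k := by
  have h1 := scale_bound h k
  have : (1 : ℝ) ≤ 2 ^ k := one_le_pow₀ (by norm_num)
  nlinarith

lemma scale_pow {T0 : ℝ} (h : 4 ≤ T0) (k r : ℕ) :
    scale T0 (k + 1) ^ (2 * r) = scale T0 k ^ (3 * r) := by
  have h0 : 0 ≤ scale T0 k := by linarith [le_scale h k]
  have h2 : scale T0 (k + 1) ^ 2 = scale T0 k ^ 3 := by
    simp only [scale]; rw [mul_pow, Real.sq_sqrt h0]; ring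
  rw [pow_mul, h2, ← pow_mul]

lemma two_scale_le {T0 : ℝ} (h : 4 ≤ T0) (k : ℕ) : 2 * scale T0 k ≤ scale T0 (k + 1) := by
  have h0 := le_scale h k
  have h3 : (2 : ℝ) ≤ √(scale T0 k) := by
    rw [Real.le_sqrt (by norm_num) (by linarith)]; linarith
  simp only [scale]
  nlinarith

/-- Comparison of negative powers. -/
lemma div_pow_le_div_pow {T a : ℝ} (hT : 1 ≤ T) (ha : 0 ≤ a) {p q p' q' : ℕ}
    (h : p + q' ≤ p' + q) : a * (T ^ p / T ^ q) ≤ a * (T ^ p' / T ^ q') := by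
  refine mul_le_mul_of_nonneg_left ?_ ha
  rw [div_le_div_iff₀ (by positivity) (by positivity), ← pow_add, ← pow_add]
  exact pow_le_pow_right₀ hT h

variable {X : Type*} [AddCommGroup X]

/-- The hypotheses of the iteration. `Bd s u M`: the derivatives of `u` up to order `s` are at most
`M`; `Er u A`: the error of `u` is at most `A`. -/
structure Hyp (L k0 : ℕ) (T0 δ : ℝ) (B Cs Cl Ch Ca : ℕ → ℝ) (Ce : ℝ)
    (Bd : ℕ → X → ℝ → Prop) (Er : X → ℝ → Prop) (Adm : ℕ → X → Prop)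
    (P : X → X) (S : ℕ → X → X) : Prop where
  bd_mono : ∀ s s' u M M', s' ≤ s → M ≤ M' → Bd s u M → Bd s' u M'
  er_mono : ∀ u A A', A ≤ A' → Er u A → Er u A'
  bd_zero : ∀ s, Bd s 0 0
  bd_add : ∀ s u v M N, Bd s u M → Bd s v N → Bd s (u + v) (M + N)
  adm_zero : Adm 0 0
  adm_step : ∀ k u, Adm k u → Bd k0 u δ → (∀ r, Bd (k0 + r) u (B r * scale T0 k ^ (2 * r))) →
    Adm (k + 1) (u + S k (P u))
  B_ge : ∀ r, Cs (k0 + r) ≤ B r
  B_zero : δ ≤ B 0
  B_nonneg : ∀ r, 0 ≤ B r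
  const_nonneg : (∀ r, 0 ≤ Cs r ∧ 0 ≤ Cl r ∧ 0 ≤ Ch r ∧ 0 ≤ Ca r) ∧ 0 ≤ Ce
  gain : ∀ k v, ∀ M : ℝ, 0 ≤ M → Bd 0 v M → ∀ s, Bd s (S k v) (Cs s * scale T0 k ^ (3 * s) * M)
  low : ∀ k u, Adm k u → Bd k0 u δ → (∀ r, Bd (k0 + r) u (B r * scale T0 k ^ (2 * r))) →
    ∀ (N : ℕ) (A : ℝ), 2 ≤ N → 0 ≤ A → Er u A →
      Bd 0 (P u) (Cl N * (scale T0 k ^ (3 * L) * A +
        scale T0 k ^ (3 * L + 2 * N + 2) / scale T0 k ^ (3 * N)))
  high : ∀ k u, Adm k u → Bd k0 u δ → (∀ r, Bd (k0 + r) u (B r * scale T0 k ^ (2 * r))) →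
    ∀ N, Bd N (P u) (Ch N * scale T0 k ^ (2 * N + 2 * L))
  approx : ∀ k v, ∀ (N : ℕ) (M : ℝ), 2 ≤ N → 0 ≤ M → Bd N v M →
    Bd 1 (v - S k v) (Ca N * M * (scale T0 k ^ 3 / scale T0 k ^ (3 * N)))
  step : ∀ k u, Adm k u → Bd k0 u δ → (∀ r, Bd (k0 + r) u (B r * scale T0 k ^ (2 * r))) →
    ∀ a b : ℝ, 0 ≤ a → 0 ≤ b → Bd 1 (P u - S k (P u)) a →
    Bd 1 (S k (P u)) b → Er (u + S k (P u)) (Ce * (a + b ^ 2))

/-- The iterates. -/
noncomputable def iter (P : X → X) (S : ℕ → X → X) : ℕ → X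
  | 0 => 0
  | k + 1 => iter P S k + S k (P (iter P S k))

variable {L k0 : ℕ} {T0 δ : ℝ} {B Cs Cl Ch Ca : ℕ → ℝ} {Ce : ℝ}
  {Bd : ℕ → X → ℝ → Prop} {Er : X → ℝ → Prop} {Adm : ℕ → X → Prop}
  {P : X → X} {S : ℕ → X → X}

/-- The bound for `P u` in terms of a bound of the error. -/
lemma bound_P (H : Hyp L k0 T0 δ B Cs Cl Ch Ca Ce Bd Er Adm P S) (hT : 4 ≤ T0) {k : ℕ} {u : X}
    (hA : Adm k u) (hl : Bd k0 u δ) (hg : ∀ r, Bd (k0 + r) u (B r * scale T0 k ^ (2 * r)))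
    {j N : ℕ} (hN : 2 * j + 2 ≤ N) {a : ℝ} (ha : 0 ≤ a) (he : Er u (a / scale T0 k ^ (2 * j))) :
    Bd 0 (P u) (Cl N * (a + 1) * (scale T0 k ^ (3 * L) / scale T0 k ^ (2 * j))) := by
  have h0 : (1 : ℝ) ≤ scale T0 k := by linarith [le_scale hT k]
  refine H.bd_mono _ _ _ _ _ le_rfl ?_ (H.low k u hA hl hg N _ (by omega) (by positivity) he)
  have h1 : scale T0 k ^ (3 * L + 2 * N + 2) / scale T0 k ^ (3 * N) ≤
      scale T0 k ^ (3 * L) / scale T0 k ^ (2 * j) := by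
    simpa using div_pow_le_div_pow h0 zero_le_one (p := 3 * L + 2 * N + 2) (q := 3 * N)
      (p' := 3 * L) (q' := 2 * j) (by omega)
  calc Cl N * (scale T0 k ^ (3 * L) * (a / scale T0 k ^ (2 * j)) +
        scale T0 k ^ (3 * L + 2 * N + 2) / scale T0 k ^ (3 * N))
      ≤ Cl N * (scale T0 k ^ (3 * L) * (a / scale T0 k ^ (2 * j)) +
        scale T0 k ^ (3 * L) / scale T0 k ^ (2 * j)) := by
        gcongr; exact (H.const_nonneg.1 N).2.1
    _ = _ := by field_simp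

/-- One step of the error recursion. -/
lemma bound_step (H : Hyp L k0 T0 δ B Cs Cl Ch Ca Ce Bd Er Adm P S) (hT : 4 ≤ T0) {k : ℕ} {u : X}
    (hA : Adm k u) (hl : Bd k0 u δ) (hg : ∀ r, Bd (k0 + r) u (B r * scale T0 k ^ (2 * r)))
    {j N e : ℕ} (hN : 2 * j + 2 ≤ N) (he1 : e + 6 * L + 6 ≤ 4 * j) (he2 : e + 6 * L + 6 ≤ N)
    {a : ℝ} (ha : 0 ≤ a) (he : Er u (a / scale T0 k ^ (2 * j))) :
    Er (u + S k (P u))
      (Ce * (Ca N * Ch N + (Cs 1 * Cl N * (a + 1)) ^ 2) / scale T0 k ^ e) := by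
  have h0 : (1 : ℝ) ≤ scale T0 k := by linarith [le_scale hT k]
  obtain ⟨hc, hce⟩ := H.const_nonneg
  have hP := bound_P H hT hA hl hg hN ha he
  have hS := H.gain k _ _ (by have := (hc N).2.1; positivity) hP 1
  have hR := H.approx k _ N _ (by omega) (by have := (hc N).2.2.1; positivity) (H.high k u hA hl hg N)
  refine H.er_mono _ _ _ ?_ (H.step k u hA hl hg _ _ ?_ ?_ hR hS)
  · set t := scale T0 k
    rw [mul_div_assoc]
    refine mul_le_mul_of_nonneg_left ?_ hce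
    have e1 : Ca N * (Ch N * t ^ (2 * N + 2 * L)) * (t ^ 3 / t ^ (3 * N)) ≤
        Ca N * Ch N * (1 / t ^ e) := by
      rw [← mul_assoc, mul_assoc, mul_div_assoc', ← pow_add]
      simpa using div_pow_le_div_pow h0 (a := Ca N * Ch N)
        (mul_nonneg (hc N).2.2.2 (hc N).2.2.1) (p := 2 * N + 2 * L + 3) (q := 3 * N)
        (p' := 0) (q' := e) (by omega)
    have e2 : (Cs 1 * t ^ (3 * 1) * (Cl N * (a + 1) * (t ^ (3 * L) / t ^ (2 * j)))) ^ 2 ≤
        (Cs 1 * Cl N * (a + 1)) ^ 2 * (1 / t ^ e) := by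
      have : (Cs 1 * t ^ (3 * 1) * (Cl N * (a + 1) * (t ^ (3 * L) / t ^ (2 * j)))) ^ 2 =
          (Cs 1 * Cl N * (a + 1)) ^ 2 * (t ^ (6 * L + 6) / t ^ (4 * j)) := by
        ring
      rw [this]
      simpa using div_pow_le_div_pow h0 (a := (Cs 1 * Cl N * (a + 1)) ^ 2) (sq_nonneg _)
        (p := 6 * L + 6) (q := 4 * j) (p' := 0) (q' := e) (by omega)
    calc _ ≤ Ca N * Ch N * (1 / t ^ e) + (Cs 1 * Cl N * (a + 1)) ^ 2 * (1 / t ^ e) :=
          add_le_add e1 e2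
      _ = _ := by ring
  · have := (hc N).2.2.2; have := (hc N).2.2.1; positivity
  · have := (hc N).2.1; have := (hc 1).1; positivity

/-- The first error exponent. -/
def j0 (L k0 : ℕ) : ℕ := 6 * L + 10 + 3 * k0

/-- The derivative order that governs the threshold. -/
def N0 (L k0 : ℕ) : ℕ := 3 * j0 L k0 + 6 * L + 7

/-- The induction: low norm, growth and error at every stage. -/
lemma invariant (H : Hyp L k0 T0 δ B Cs Cl Ch Ca Ce Bd Er Adm P S) {Λ : ℝ} (hΛ : 1 ≤ Λ)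
    (hT : 8 * Λ ^ 5 ≤ T0) (hδ : 2 / T0 ≤ δ)
    (hb : Cs 1 ≤ Λ ∧ Cs k0 ≤ Λ ∧ Cl (N0 L k0) ≤ Λ ∧ Ch (N0 L k0) ≤ Λ ∧ Ca (N0 L k0) ≤ Λ ∧ Ce ≤ Λ)
    (h0 : Er 0 (1 / T0 ^ (2 * j0 L k0))) (k : ℕ) :
    Adm k (iter P S k) ∧ Bd k0 (iter P S k) (2 / T0 - 2 / scale T0 k) ∧
      (∀ r, Bd (k0 + r) (iter P S k) (B r * scale T0 k ^ (2 * r))) ∧
      Er (iter P S k) (1 / scale T0 k ^ (2 * j0 L k0)) := by
  have hT4 : 4 ≤ T0 := by
    have : (1 : ℝ) ≤ Λ ^ 5 := one_le_pow₀ hΛ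
    linarith
  induction k with
  | zero =>
    refine ⟨H.adm_zero, ?_, fun r => ?_, by simpa [iter, scale] using h0⟩
    · simpa [iter, scale] using H.bd_zero k0
    · refine H.bd_mono _ _ _ _ _ le_rfl ?_ (H.bd_zero (k0 + r))
      have := H.B_nonneg r; have : (0 : ℝ) ≤ scale T0 0 := by simp [scale]; linarith
      positivity
  | succ k ih =>
    obtain ⟨hA, hl, hg, he⟩ := ih
    obtain ⟨hc, hce⟩ := H.const_nonneg
    obtain ⟨hb1, hbk, hbl, hbh, hba, hbe⟩ := hb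
    set t := scale T0 k with ht
    have htT : T0 ≤ t := le_scale hT4 k
    have ht1 : (1 : ℝ) ≤ t := by linarith
    have hlδ : Bd k0 (iter P S k) δ := by
      refine H.bd_mono _ _ _ _ _ le_rfl ?_ hl
      have : (0 : ℝ) ≤ 2 / t := by positivity
      linarith
    have hP := bound_P H hT4 hA hlδ hg (j := j0 L k0) (N := N0 L k0) (by simp [N0]; omega)
      zero_le_one he
    rw [← ht] at hP
    have hsmall : ∀ s, Bd s (S k (P (iter P S k)))
        (Cs s * (t ^ (3 * s) / t ^ (3 * k0 + 2))) := by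
      intro s
      refine H.bd_mono _ _ _ _ _ le_rfl ?_
        (H.gain k _ _ (by have := (hc (N0 L k0)).2.1; positivity) hP s)
      rw [← ht, mul_assoc]
      refine mul_le_mul_of_nonneg_left ?_ (hc s).1
      calc t ^ (3 * s) * (Cl (N0 L k0) * (1 + 1) * (t ^ (3 * L) / t ^ (2 * j0 L k0)))
          ≤ t ^ (3 * s) * (t * (t ^ (3 * L) / t ^ (2 * j0 L k0))) := by
            gcongr
            have : Λ ≤ Λ ^ 5 := le_self_pow₀ hΛ (by norm_num)
            nlinarith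
        _ = 1 * (t ^ (3 * s + 3 * L + 1) / t ^ (2 * j0 L k0)) := by ring
        _ ≤ 1 * (t ^ (3 * s) / t ^ (3 * k0 + 2)) :=
            div_pow_le_div_pow ht1 zero_le_one (by simp [j0]; omega)
        _ = _ := one_mul _
    have hlow : Bd k0 (iter P S (k + 1)) (2 / T0 - 2 / scale T0 (k + 1)) := by
      refine H.bd_mono _ _ _ _ _ le_rfl ?_ (H.bd_add _ _ _ _ _ hl (hsmall k0))
      have h2 := two_scale_le hT4 k
      rw [← ht] at h2
      have e1 : 2 / scale T0 (k + 1) ≤ 1 / t := by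
        rw [div_le_div_iff₀ (by linarith) (by linarith)]; linarith
      have e2 : Cs k0 * (t ^ (3 * k0) / t ^ (3 * k0 + 2)) ≤ 1 / t := by
        rw [pow_add, div_mul_eq_div_div, div_self (by positivity), mul_one_div,
          div_le_div_iff₀ (by positivity) (by linarith)]
        have : Λ ≤ Λ ^ 5 := le_self_pow₀ hΛ (by norm_num)
        nlinarith
      have : 2 / t = 1 / t + 1 / t := by ring
      linarith
    refine ⟨H.adm_step k _ hA hlδ hg, hlow, fun r => ?_, ?_⟩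
    · rcases Nat.eq_zero_or_pos r with rfl | hr
      · refine H.bd_mono _ _ _ _ _ le_rfl ?_ hlow
        have : (0 : ℝ) ≤ 2 / scale T0 (k + 1) := by
          have := le_scale hT4 (k + 1)
          exact div_nonneg zero_le_two (by linarith)
        simp only [Nat.mul_zero, pow_zero, mul_one]
        linarith [H.B_zero]
      refine H.bd_mono _ _ _ _ _ le_rfl ?_ (H.bd_add _ _ _ _ _ (hg r) (hsmall (k0 + r)))
      rw [scale_pow hT4, ← ht]
      have hB := H.B_ge r; have hB0 := H.B_nonneg r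
      have e2 : Cs (k0 + r) * (t ^ (3 * (k0 + r)) / t ^ (3 * k0 + 2)) ≤
          B r * (t ^ (3 * r) / t ^ 2) := by
        refine mul_le_mul hB (le_of_eq ?_) (by positivity) hB0
        rw [mul_add, pow_add, pow_add, mul_div_mul_left _ _ (by positivity)]
      have e1 : B r * t ^ (2 * r) ≤ B r * (t ^ (3 * r) / t) := by
        simpa using div_pow_le_div_pow ht1 hB0 (p := 2 * r) (q := 0) (p' := 3 * r) (q' := 1)
          (by omega)
      have e3 : t ^ (3 * r) / t ^ 2 ≤ t ^ (3 * r) / t := by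
        gcongr; exact le_self_pow₀ ht1 (by norm_num)
      have e4 : B r * (t ^ (3 * r) / t) * 2 ≤ B r * t ^ (3 * r) := by
        rw [mul_assoc]; gcongr
        rw [div_mul_eq_mul_div, div_le_iff₀ (by linarith)]
        gcongr; linarith
      have := mul_le_mul_of_nonneg_left e3 hB0
      linarith
    · have hs := bound_step H hT4 hA hlδ hg (j := j0 L k0) (N := N0 L k0)
        (e := 3 * j0 L k0 + 1) (by simp [N0]; omega) (by simp [j0]; omega)
        (by simp [N0]; omega) zero_le_one he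
      refine H.er_mono _ _ _ ?_ hs
      rw [← ht, scale_pow hT4, ← ht]
      have hC : Ce * (Ca (N0 L k0) * Ch (N0 L k0) +
          (Cs 1 * Cl (N0 L k0) * (1 + 1)) ^ 2) ≤ t := by
        have a1 := (hc 1).1; have a2 := (hc (N0 L k0)).2.1
        have a3 := (hc (N0 L k0)).2.2.1; have a4 := (hc (N0 L k0)).2.2.2
        calc _ ≤ Λ * (Λ * Λ + (Λ * Λ * (1 + 1)) ^ 2) := by gcongr
          _ ≤ 8 * Λ ^ 5 := by
              have : Λ ^ 3 ≤ Λ ^ 5 := pow_le_pow_right₀ hΛ (by norm_num)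
              nlinarith
          _ ≤ t := hT.trans htT
      rw [div_le_div_iff₀ (by positivity) (by positivity), one_mul, pow_succ' t]
      exact mul_le_mul_of_nonneg_right hC (by positivity)

lemma delta_bd (H : Hyp L k0 T0 δ B Cs Cl Ch Ca Ce Bd Er Adm P S) (hT : 4 ≤ T0)
    (hδ : 2 / T0 ≤ δ) {k : ℕ} {u : X} (hl : Bd k0 u (2 / T0 - 2 / scale T0 k)) : Bd k0 u δ := by
  refine H.bd_mono _ _ _ _ _ le_rfl ?_ hl
  have : (0 : ℝ) ≤ 2 / scale T0 k := div_nonneg zero_le_two (by linarith [le_scale hT k])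
  linarith

/-- The iteration theorem: the iterates stay in the ball, their increments are summable in every
`C^s` and their errors decrease faster than every power of the scale. -/
theorem converge (H : Hyp L k0 T0 δ B Cs Cl Ch Ca Ce Bd Er Adm P S) {Λ : ℝ} (hΛ : 1 ≤ Λ)
    (hT : 8 * Λ ^ 5 ≤ T0) (hδ : 2 / T0 ≤ δ)
    (hb : Cs 1 ≤ Λ ∧ Cs k0 ≤ Λ ∧ Cl (N0 L k0) ≤ Λ ∧ Ch (N0 L k0) ≤ Λ ∧ Ca (N0 L k0) ≤ Λ ∧ Ce ≤ Λ)
    (h0 : Er 0 (1 / T0 ^ (2 * j0 L k0))) :
    (∀ k, Adm k (iter P S k) ∧ Bd k0 (iter P S k) (2 / T0)) ∧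
      (∀ j, ∃ a, 0 ≤ a ∧ ∀ k, Er (iter P S k) (a / scale T0 k ^ (2 * j))) ∧
      ∀ s, ∃ C, 0 ≤ C ∧ ∀ k, Bd s (S k (P (iter P S k))) (C / 2 ^ k) := by
  have hT4 : 4 ≤ T0 := by
    have : (1 : ℝ) ≤ Λ ^ 5 := one_le_pow₀ hΛ
    linarith
  have hI := invariant H hΛ hT hδ hb h0
  have hlδ : ∀ k, Bd k0 (iter P S k) δ := fun k => delta_bd H hT4 hδ (hI k).2.1
  have h1 : ∀ k, (1 : ℝ) ≤ scale T0 k := fun k => by linarith [le_scale hT4 k]
  obtain ⟨hc, hce⟩ := H.const_nonneg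
  have herr : ∀ j, ∃ a, 0 ≤ a ∧ ∀ k, Er (iter P S k) (a / scale T0 k ^ (2 * j)) := by
    intro j
    induction j with
    | zero =>
      refine ⟨1, zero_le_one, fun k => H.er_mono _ _ _ ?_ (hI k).2.2.2⟩
      gcongr
      · exact pow_pos (by linarith [h1 k]) _
      · exact h1 k
      · simp
    | succ j ih =>
      by_cases hj : j + 1 ≤ j0 L k0
      · refine ⟨1, zero_le_one, fun k => H.er_mono _ _ _ ?_ (hI k).2.2.2⟩
        gcongr
        · exact pow_pos (by linarith [h1 k]) _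
        · exact h1 k
      obtain ⟨a, ha, he⟩ := ih
      set N := 4 * j + 6 * L + 8
      set c := Ce * (Ca N * Ch N + (Cs 1 * Cl N * (a + 1)) ^ 2)
      have hc0 : 0 ≤ c := by
        have := (hc N).2.2.1; have := (hc N).2.2.2; positivity
      refine ⟨T0 ^ (2 * (j + 1)) + c, by have := h1 0; simp only [scale] at this; positivity,
        fun k => ?_⟩
      cases k with
      | zero =>
        refine H.er_mono _ _ _ ?_ h0
        have h10 := h1 0
        simp only [scale] at h10 ⊢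
        rw [add_div, div_self (by positivity)]
        have : 1 / T0 ^ (2 * j0 L k0) ≤ 1 := by
          rw [div_le_one (by positivity)]; exact one_le_pow₀ h10
        have : 0 ≤ c / T0 ^ (2 * (j + 1)) := by positivity
        linarith
      | succ k =>
        have := bound_step H hT4 (hI k).1 (hlδ k) (hI k).2.2.1 (j := j) (N := N)
          (e := 3 * (j + 1)) (by omega) (by unfold j0 at hj; omega) (by unfold j0 at hj; omega) ha (he k)
        refine H.er_mono _ _ _ ?_ this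
        rw [scale_pow hT4]
        have := h1 k
        gcongr
        exact le_add_of_nonneg_left (by positivity)
  refine ⟨fun k => ⟨(hI k).1, H.bd_mono _ _ _ _ _ le_rfl ?_ (hI k).2.1⟩, herr, fun s => ?_⟩
  · have : (0 : ℝ) ≤ 2 / scale T0 k := div_nonneg zero_le_two (by linarith [h1 k])
    linarith
  obtain ⟨a, ha, he⟩ := herr (3 * s + 3 * L + 1)
  set j := 3 * s + 3 * L + 1
  set N := 2 * j + 2
  refine ⟨Cs s * (Cl N * (a + 1)), ?_, fun k => ?_⟩
  · have := (hc N).2.1; have := (hc s).1; positivity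
  have hP := bound_P H hT4 (hI k).1 (hlδ k) (hI k).2.2.1 (N := N) le_rfl ha (he k)
  refine H.bd_mono _ _ _ _ _ le_rfl ?_
    (H.gain k _ _ (by have := (hc N).2.1; have := h1 k; positivity) hP s)
  have hk : (2 : ℝ) ^ k ≤ scale T0 k := by
    refine le_trans ?_ (scale_bound hT4 k)
    exact le_mul_of_one_le_left (by positivity) (by linarith)
  calc Cs s * scale T0 k ^ (3 * s) * (Cl N * (a + 1) * (scale T0 k ^ (3 * L) / scale T0 k ^ (2 * j)))
      = Cs s * (Cl N * (a + 1)) * (scale T0 k ^ (3 * s + 3 * L) / scale T0 k ^ (2 * j)) := by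
        rw [pow_add]; ring
    _ ≤ Cs s * (Cl N * (a + 1)) * (scale T0 k ^ 0 / scale T0 k ^ 1) :=
        div_pow_le_div_pow (h1 k)
          (by have := (hc N).2.1; have := (hc s).1; positivity) (by omega)
    _ ≤ Cs s * (Cl N * (a + 1)) * (1 / 2 ^ k) := by
        rw [pow_zero, pow_one]
        have := (hc N).2.1; have := (hc s).1
        gcongr
    _ = _ := by ring

end Vale.Agent.P205F.NM
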