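import Mathlib

/-!
# P205, Nash-Moser: smoothing kernels on the line

`ker θ` is supported in `|t| ≤ 1/√θ`, its `i`-th derivative has `L¹` norm `O(θ^i)`, and its moments
agree with those of the Dirac mass up to `O(θ^{-N})` for every `N`.
-/

namespace Vale.Agent.P205F.NM

open Real MeasureTheory Complex
open scoped FourierTransform ContDiff SchwartzMap

noncomputable def bump : ContDiffBump (0 : ℝ) :=
  { rIn := 1 / 2, rOut := 1, rIn_pos := by norm_num, rIn_lt_rOut := by norm_num }

/-- A cutoff equal to one on `|t| ≤ 1/2`, supported in `|t| ≤ 1`. -/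
noncomputable def chi (t : ℝ) : ℝ := bump t

lemma chi_smooth : ContDiff ℝ ∞ chi := bump.contDiff

lemma chi_abs_le (t : ℝ) : |chi t| ≤ 1 := by
  rw [chi, abs_of_nonneg bump.nonneg]; exact bump.le_one

lemma chi_one {t : ℝ} (h : |t| ≤ 1 / 2) : chi t = 1 := by
  refine bump.one_of_mem_closedBall ?_
  simpa [Metric.mem_closedBall, dist_eq_norm, bump] using h

lemma chi_zero {t : ℝ} (h : 1 ≤ |t|) : chi t = 0 := by
  refine bump.zero_of_le_dist ?_
  simpa [dist_eq_norm, bump] using h

lemma chi_compact : HasCompactSupport chi := bump.hasCompactSupport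

lemma chi_deriv_bound (i : ℕ) : ∃ C, ∀ t, |iteratedDeriv i chi t| ≤ C := by
  have hc : Continuous (iteratedDeriv i chi) :=
    chi_smooth.continuous_iteratedDeriv i (by exact_mod_cast le_top)
  have hs : HasCompactSupport (iteratedDeriv i chi) := by
    induction i with
    | zero => simpa using chi_compact
    | succ i ih =>
      rw [iteratedDeriv_succ]
      exact (ih (chi_smooth.continuous_iteratedDeriv i (by exact_mod_cast le_top))).deriv
  obtain ⟨C, hC⟩ := hc.bounded_above_of_compact_support hs
  exact ⟨C, fun t => by simpa [Real.norm_eq_abs] using hC t⟩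

/-- The Fourier transform of the profile. -/
noncomputable def hatProfile : 𝓢(ℝ, ℂ) :=
  (bump.hasCompactSupport.comp_left (g := Complex.ofReal) Complex.ofReal_zero).toSchwartzMap
    (Complex.ofRealCLM.contDiff.comp bump.contDiff)

/-- A Schwartz function with moments of the Dirac mass. -/
noncomputable def profileC : 𝓢(ℝ, ℂ) := 𝓕⁻ hatProfile

/-- Its real part. -/
noncomputable def profile : 𝓢(ℝ, ℝ) := SchwartzMap.postcompCLM Complex.reCLM profileC

lemma profile_apply (t : ℝ) : profile t = (profileC t).re := rfl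

lemma integrable_pow_smul {F : Type*} [NormedAddCommGroup F] [NormedSpace ℝ F] (f : 𝓢(ℝ, F))
    (n : ℕ) : Integrable (fun x : ℝ => x ^ n • f x) := by
  refine (f.integrable_pow_mul volume n).mono' (by fun_prop) (.of_forall fun x => ?_)
  simp [norm_smul, norm_pow]

lemma profile_moment (n : ℕ) :
    ∫ t, t ^ n * profile t = if n = 0 then (1 : ℝ) else 0 := by
  have h1 : (𝓕 (profileC : ℝ → ℂ)) = fun x => (bump x : ℂ) := by
    rw [← SchwartzMap.fourier_coe, profileC, FourierTransform.fourier_fourierInv_eq]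
    rfl
  have h2 := congrFun (Real.iteratedDeriv_fourier (f := (profileC : ℝ → ℂ)) (N := ⊤) (n := n)
    (fun m _ => integrable_pow_smul profileC m) le_top) 0
  rw [h1] at h2
  have h3 : iteratedDeriv n (fun x : ℝ => (bump x : ℂ)) 0 = if n = 0 then 1 else 0 := by
    have : (fun x : ℝ => (bump x : ℂ)) =ᶠ[nhds 0] fun _ => 1 := by
      filter_upwards [bump.eventuallyEq_one] with x hx
      simp [hx]
    rw [this.iteratedDeriv_eq n]
    simp [iteratedDeriv_const]
  rw [h3, Real.fourier_real_eq] at h2
  have h4 : (∫ t : ℝ, (t : ℂ) ^ n * profileC t) = if n = 0 then 1 else 0 := by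
    have hne : (-2 * (π : ℂ) * I) ^ n ≠ 0 := by
      apply pow_ne_zero; simp [Real.pi_ne_zero]
    refine mul_left_cancel₀ hne ?_
    rw [← integral_const_mul]
    have : (∫ t : ℝ, (-2 * (π : ℂ) * I) ^ n * ((t : ℂ) ^ n * profileC t)) =
        if n = 0 then 1 else 0 := by
      rw [h2]
      congr 1 with t
      simp only [mul_zero, neg_zero, AddChar.map_zero_eq_one, one_smul, smul_eq_mul, mul_pow]
      ring
    rw [this]; split_ifs with h <;> simp [h]
  have h5 : Integrable (fun t : ℝ => (t : ℂ) ^ n * profileC t) := by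
    simpa [Complex.real_smul, Complex.ofReal_pow] using integrable_pow_smul profileC n
  have h6 := congrArg Complex.re h4
  rw [← RCLike.re_eq_complex_re, ← integral_re h5] at h6
  convert h6 using 1
  · congr 1 with t
    simp [profile_apply, ← Complex.ofReal_pow]
  · split_ifs <;> simp

/-- The kernel at scale `θ`. -/
noncomputable def ker (θ : ℝ) (t : ℝ) : ℝ := θ * profile (θ * t) * chi (√θ * t)

lemma ker_smooth (θ : ℝ) : ContDiff ℝ ∞ (ker θ) :=
  (contDiff_const.mul ((profile.smooth ⊤).comp (contDiff_const.mul contDiff_id))).mul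
    (chi_smooth.comp (contDiff_const.mul contDiff_id))

lemma ker_zero {θ t : ℝ} (hθ : 0 < θ) (h : 1 / √θ ≤ |t|) : ker θ t = 0 := by
  have hs : 0 < √θ := Real.sqrt_pos.2 hθ
  rw [ker, chi_zero, mul_zero]
  rw [abs_mul, abs_of_pos hs]
  rw [div_le_iff₀ hs] at h
  linarith

lemma ker_compact {θ : ℝ} (hθ : 0 < θ) : HasCompactSupport (ker θ) := by
  refine HasCompactSupport.of_support_subset_isCompact
    (isCompact_Icc (a := -(1 / √θ)) (b := 1 / √θ)) fun t ht => ?_
  by_contra hc
  refine ht (ker_zero hθ ?_)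
  rw [Set.mem_Icc, ← abs_le] at hc
  exact le_of_lt (not_le.1 hc)

lemma iteratedDeriv_ker_abs_le (i : ℕ) : ∃ C, 0 ≤ C ∧ ∀ θ : ℝ, 1 ≤ θ → ∀ t,
    |iteratedDeriv i (ker θ) t| ≤
      C * θ ^ i * ∑ j ∈ Finset.range (i + 1), θ * |iteratedDeriv j profile (θ * t)| := by
  choose c hc using chi_deriv_bound
  have hc0 : ∀ j, 0 ≤ c j := fun j => le_trans (abs_nonneg _) (hc j 0)
  refine ⟨∑ j ∈ Finset.range (i + 1), (i.choose j : ℝ) * c (i - j),
    Finset.sum_nonneg fun j _ => mul_nonneg (Nat.cast_nonneg _) (hc0 _), fun θ hθ t => ?_⟩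
  have hs : √θ ≤ θ := by
    rw [Real.sqrt_le_iff]; exact ⟨by linarith, by nlinarith⟩
  have hf : ContDiff ℝ ∞ (fun t => θ * profile (θ * t)) :=
    contDiff_const.mul ((profile.smooth ⊤).comp (contDiff_const.mul contDiff_id))
  have hg : ContDiff ℝ ∞ (fun t => chi (√θ * t)) := chi_smooth.comp (contDiff_const.mul contDiff_id)
  unfold ker
  rw [iteratedDeriv_fun_mul ((hf.of_le (by exact_mod_cast le_top)).contDiffAt)
    ((hg.of_le (by exact_mod_cast le_top)).contDiffAt)]
  refine (Finset.abs_sum_le_sum_abs _ _).trans ?_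
  rw [Finset.mul_sum]
  refine Finset.sum_le_sum fun j hj => ?_
  have hj' : j ≤ i := Nat.lt_succ_iff.1 (Finset.mem_range.1 hj)
  rw [iteratedDeriv_const_mul_field,
    iteratedDeriv_comp_const_mul ((profile.smooth ⊤).of_le (by exact_mod_cast le_top)),
    iteratedDeriv_comp_const_mul (contDiff_infty.1 chi_smooth _)]
  simp only [abs_mul, abs_pow, Nat.abs_cast, abs_of_nonneg (Real.sqrt_nonneg θ),
    abs_of_nonneg (show (0 : ℝ) ≤ θ by linarith)]
  calc (i.choose j : ℝ) * (θ * (θ ^ j * |iteratedDeriv j profile (θ * t)|)) *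
        (√θ ^ (i - j) * |iteratedDeriv (i - j) chi (√θ * t)|)
      ≤ (i.choose j : ℝ) * (θ * (θ ^ j * |iteratedDeriv j profile (θ * t)|)) *
        (θ ^ (i - j) * c (i - j)) := by gcongr; exact hc _ _
    _ = ((i.choose j : ℝ) * c (i - j)) * θ ^ i * (θ * |iteratedDeriv j profile (θ * t)|) := by
        rw [show θ ^ i = θ ^ j * θ ^ (i - j) by rw [← pow_add]; congr 1; omega]; ring
    _ ≤ _ := by
        gcongr
        exact Finset.single_le_sum (f := fun j => (i.choose j : ℝ) * c (i - j))
          (fun j _ => mul_nonneg (Nat.cast_nonneg _) (hc0 _)) hj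

lemma integrable_iteratedDeriv_profile (j : ℕ) : Integrable (iteratedDeriv j profile) := by
  refine (profile.integrable_pow_mul_iteratedFDeriv volume 0 j).mono'
    ((profile.smooth ⊤).continuous_iteratedDeriv j (by exact_mod_cast le_top)).aestronglyMeasurable
    (.of_forall fun x => ?_)
  simp [norm_iteratedFDeriv_eq_norm_iteratedDeriv]

/-- The derivatives of the kernel in `L¹`. -/
theorem ker_deriv_norm (i : ℕ) : ∃ C, 0 ≤ C ∧ ∀ θ : ℝ, 1 ≤ θ →
    ∫ t, |iteratedDeriv i (ker θ) t| ≤ C * θ ^ i := by
  obtain ⟨C, hC, h⟩ := iteratedDeriv_ker_abs_le i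
  refine ⟨C * ∑ j ∈ Finset.range (i + 1), ∫ t, |iteratedDeriv j profile t|, by positivity,
    fun θ hθ => ?_⟩
  have hint : ∀ j, Integrable fun t => θ * |iteratedDeriv j profile (θ * t)| := fun j =>
    ((integrable_iteratedDeriv_profile j).comp_mul_left' (by positivity)).abs.const_mul θ
  have hval : ∀ j, ∫ t, θ * |iteratedDeriv j profile (θ * t)| =
      ∫ t, |iteratedDeriv j profile t| := by
    intro j
    rw [integral_const_mul, Measure.integral_comp_mul_left (fun t => |iteratedDeriv j profile t|),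
      abs_inv, abs_of_pos (show (0 : ℝ) < θ by linarith), smul_eq_mul, ← mul_assoc,
      mul_inv_cancel₀ (by positivity), one_mul]
  calc ∫ t, |iteratedDeriv i (ker θ) t| ≤
      ∫ t, C * θ ^ i * ∑ j ∈ Finset.range (i + 1), θ * |iteratedDeriv j profile (θ * t)| :=
        integral_mono_of_nonneg (.of_forall fun _ => abs_nonneg _)
          ((integrable_finsetSum _ fun j _ => hint j).const_mul _) (.of_forall (h θ hθ))
    _ = _ := by
        rw [integral_const_mul, integral_finsetSum _ fun j _ => hint j]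
        simp only [hval]; ring

/-- The moments of the kernel. -/
theorem ker_moment (N : ℕ) : ∃ C, 0 ≤ C ∧ ∀ θ : ℝ, 1 ≤ θ →
    (∀ i < N, |(∫ t, t ^ i * ker θ t) - if i = 0 then 1 else 0| ≤ C / θ ^ N) ∧
    ∫ t, |t| ^ N * |ker θ t| ≤ C / θ ^ N := by
  have hpi : ∀ n, Integrable fun s : ℝ => |s| ^ n * |profile s| := fun n => by
    simpa [Real.norm_eq_abs] using profile.integrable_pow_mul volume n
  refine ⟨(∫ s, |s| ^ N * |profile s|) +
    ∑ i ∈ Finset.range N, 2 * 2 ^ (2 * N) * ∫ s, |s| ^ (i + 2 * N) * |profile s|,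
    add_nonneg (by positivity) (Finset.sum_nonneg fun i _ => by positivity),
    fun θ hθ => ⟨fun i hi => ?_, ?_⟩⟩
  · have hθ0 : (0 : ℝ) < θ := by linarith
    have hs : 0 < √θ := Real.sqrt_pos.2 hθ0
    have e1 : ∫ t, t ^ i * ker θ t = (∫ s, s ^ i * (profile s * chi (s / √θ))) / θ ^ i := by
      have := Measure.integral_comp_mul_left (fun s => s ^ i * (profile s * chi (s / √θ))) θ
      rw [abs_inv, abs_of_pos hθ0, smul_eq_mul] at this
      have e : (fun t => t ^ i * ker θ t) =
          fun t => θ / θ ^ i * ((θ * t) ^ i * (profile (θ * t) * chi (θ * t / √θ))) := by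
        ext t
        have : θ * t / √θ = √θ * t := by
          rw [div_eq_iff hs.ne', mul_right_comm, Real.mul_self_sqrt hθ0.le]
        rw [this, ker, mul_pow]
        field_simp
      rw [e, integral_const_mul, this]
      field_simp
    have hint1 : Integrable fun s => s ^ i * (profile s * chi (s / √θ)) := by
      refine (hpi i).mono' ((continuous_pow i).mul (profile.continuous.mul
        (chi_smooth.continuous.comp (continuous_id.div_const _)))).aestronglyMeasurable
        (.of_forall fun s => ?_)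
      simp only [Real.norm_eq_abs, abs_mul, abs_pow]
      gcongr
      exact mul_le_of_le_one_right (abs_nonneg _) (chi_abs_le _)
    have hint2 : Integrable fun s => s ^ i * profile s := by
      simpa using integrable_pow_smul profile i
    have e2 : |(∫ s, s ^ i * (profile s * chi (s / √θ))) - if i = 0 then 1 else 0| ≤
        (2 * 2 ^ (2 * N) * ∫ s, |s| ^ (i + 2 * N) * |profile s|) / θ ^ N := by
      rw [← profile_moment i, ← integral_sub hint1 hint2, ← integral_const_mul, ← integral_div]
      refine (abs_integral_le_integral_abs).trans (integral_mono_of_nonneg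
        (.of_forall fun _ => abs_nonneg _) (((hpi _).const_mul _).div_const _)
        (.of_forall fun s => ?_))
      by_cases hc : |s / √θ| ≤ 1 / 2
      · simp only [chi_one hc, mul_one, sub_self, abs_zero]; positivity
      rw [not_le, abs_div, abs_of_pos hs, div_lt_div_iff₀ two_pos hs, one_mul] at hc
      have hpow : θ ^ N ≤ 2 ^ (2 * N) * |s| ^ (2 * N) := by
        calc θ ^ N = √θ ^ (2 * N) := by rw [pow_mul, Real.sq_sqrt hθ0.le]
          _ ≤ (|s| * 2) ^ (2 * N) := by gcongr
          _ = _ := by rw [mul_pow]; ring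
      show |s ^ i * (profile s * chi (s / √θ)) - s ^ i * profile s| ≤ _
      rw [le_div_iff₀ (by positivity), ← mul_sub, abs_mul, abs_pow, ← mul_sub_one, abs_mul]
      have : |chi (s / √θ) - 1| ≤ 2 := by
        have := chi_abs_le (s / √θ); rw [abs_le] at this ⊢; constructor <;> linarith
      calc |s| ^ i * (|profile s| * |chi (s / √θ) - 1|) * θ ^ N
          ≤ |s| ^ i * (|profile s| * 2) * (2 ^ (2 * N) * |s| ^ (2 * N)) := by gcongr
        _ = _ := by rw [pow_add]; ring
    have hle : (2 * 2 ^ (2 * N) * ∫ s, |s| ^ (i + 2 * N) * |profile s|) ≤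
        (∫ s, |s| ^ N * |profile s|) +
          ∑ i ∈ Finset.range N, 2 * 2 ^ (2 * N) * ∫ s, |s| ^ (i + 2 * N) * |profile s| := by
      refine le_add_of_nonneg_of_le (by positivity) ?_
      exact Finset.single_le_sum
        (f := fun i => 2 * 2 ^ (2 * N) * ∫ s, |s| ^ (i + 2 * N) * |profile s|)
        (fun j _ => by positivity) (Finset.mem_range.2 hi)
    refine le_trans ?_ (div_le_div_of_nonneg_right hle (by positivity))
    refine le_trans ?_ e2
    rw [e1]
    rcases Nat.eq_zero_or_pos i with rfl | hi0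
    · simp
    · simp only [hi0.ne', if_false, sub_zero, abs_div, abs_pow, abs_of_pos hθ0]
      exact div_le_self (abs_nonneg _) (one_le_pow₀ hθ)
  · have hθ0 : (0 : ℝ) < θ := by linarith
    refine le_trans ?_ (div_le_div_of_nonneg_right (le_add_of_nonneg_right
      (Finset.sum_nonneg fun i _ => by positivity)) (by positivity))
    have := Measure.integral_comp_mul_left (fun s => |s| ^ N * |profile s|) θ
    rw [abs_inv, abs_of_pos hθ0, smul_eq_mul] at this
    have e : (∫ s, |s| ^ N * |profile s|) / θ ^ N =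
        ∫ t, θ / θ ^ N * (|θ * t| ^ N * |profile (θ * t)|) := by
      rw [integral_const_mul, this]; field_simp
    rw [e]
    refine integral_mono_of_nonneg (.of_forall fun _ => by positivity)
      (((hpi N).comp_mul_left' hθ0.ne').const_mul _) (.of_forall fun t => ?_)
    simp only [ker, abs_mul, abs_of_pos hθ0, mul_pow]
    rw [show θ / θ ^ N * (θ ^ N * |t| ^ N * |profile (θ * t)|) =
      |t| ^ N * (θ * |profile (θ * t)|) by field_simp]
    exact mul_le_mul_of_nonneg_left
      (mul_le_of_le_one_right (by positivity) (chi_abs_le _)) (by positivity)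

end Vale.Agent.P205F.NM
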