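import Vale.Agent.P205F.NashMoser.Ops

/-!
# P205, Nash-Moser: smooth limits of the iterates
-/

namespace Vale.Agent.P205F.NM

open scoped ContDiff Topology
open Filter

variable {X : Type} [NormedAddCommGroup X] [NormedSpace ℝ X]

lemma Sm.add {u v : E2 → X} (hu : Sm u) (hv : Sm v) : Sm (u + v) := by
  refine ⟨hu.1.add hv.1, fun i => ?_⟩
  obtain ⟨M, hM⟩ := hu.2 i
  obtain ⟨N, hN⟩ := hv.2 i
  refine ⟨M + N, fun x => ?_⟩
  rw [iteratedFDeriv_add_apply (hu.1.of_le (by exact_mod_cast le_top)).contDiffAt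
    (hv.1.of_le (by exact_mod_cast le_top)).contDiffAt]
  exact (norm_add_le _ _).trans (add_le_add (hM x) (hN x))

lemma Sm.sub {u v : E2 → X} (hu : Sm u) (hv : Sm v) : Sm (u - v) := by
  refine ⟨hu.1.sub hv.1, fun i => ?_⟩
  obtain ⟨M, hM⟩ := hu.2 i
  obtain ⟨N, hN⟩ := hv.2 i
  refine ⟨M + N, fun x => ?_⟩
  rw [iteratedFDeriv_sub_apply (hu.1.of_le (by exact_mod_cast le_top)).contDiffAt
    (hv.1.of_le (by exact_mod_cast le_top)).contDiffAt]
  exact (norm_sub_le _ _).trans (add_le_add (hM x) (hN x))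

lemma bnd_add {s : ℕ} {u v : E2 → X} {M N : ℝ} (hu : Sm u) (hv : Sm v) (h1 : Bnd s u M)
    (h2 : Bnd s v N) : Bnd s (u + v) (M + N) := fun i hi x => by
  rw [iteratedFDeriv_add_apply (hu.1.of_le (by exact_mod_cast le_top)).contDiffAt
    (hv.1.of_le (by exact_mod_cast le_top)).contDiffAt]
  exact (norm_add_le _ _).trans (add_le_add (h1 i hi x) (h2 i hi x))

lemma sm_zero : Sm (0 : E2 → X) :=
  ⟨contDiff_const, fun i => ⟨0, fun x => by
    rw [show (0 : E2 → X) = fun _ => 0 from rfl, iteratedFDeriv_fun_zero]; simp⟩⟩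

lemma bnd_zero (s : ℕ) : Bnd s (0 : E2 → X) 0 := fun i _ x => by
  rw [show (0 : E2 → X) = fun _ => 0 from rfl, iteratedFDeriv_fun_zero]; simp

/-- A series of maps with geometrically small derivatives of every order. -/
theorem limit_series (w : ℕ → E2 → R4) (U : ℕ → E2 → R4) (hU0 : U 0 = 0)
    (hUs : ∀ k, U (k + 1) = U k + w k) (hw : ∀ k, Sm (w k))
    (hb : ∀ s, ∃ C, 0 ≤ C ∧ ∀ k, Bnd s (w k) (C / 2 ^ k)) (K : Set E2)
    (hK : ∀ k, ∀ x ∉ K, U k x = 0) :
    ∃ u : E2 → R4, ContDiff ℝ ∞ u ∧ (∀ x ∉ K, u x = 0) ∧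
      (∀ x, Tendsto (fun k => fderiv ℝ (U k) x) atTop (𝓝 (fderiv ℝ u x))) ∧
      ∀ s b, (∀ k, Bnd s (U k) b) → Bnd s u b := by
  choose C hC0 hC using hb
  set v : ℕ → ℕ → ℝ := fun i k => C i / 2 ^ k
  have hv : ∀ i, Summable (v i) := fun i => by
    have := summable_geometric_two.mul_left (C i)
    simpa [v, div_eq_mul_inv, ← inv_pow] using this
  have hd : ∀ (i k : ℕ) (x : E2), ‖iteratedFDeriv ℝ i (w k) x‖ ≤ v i k := fun i k x =>
    hC i k i le_rfl x
  have hUk : ∀ k, U k = ∑ j ∈ Finset.range k, w j := by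
    intro k
    induction k with
    | zero => simpa using hU0
    | succ k ih => rw [hUs, ih, Finset.sum_range_succ]
  set u : E2 → R4 := fun x => ∑' k, w k x
  have hu : ContDiff ℝ ∞ u := contDiff_tsum (N := ⊤) (fun k => (hw k).1) (fun i _ => hv i)
    (fun i k x _ => hd i k x)
  have hsum : ∀ x, HasSum (fun k => w k x) (u x) := fun x =>
    (Summable.of_norm_bounded (hv 0) fun k => by simpa using hd 0 k x).hasSum
  refine ⟨u, hu, fun x hx => ?_, fun x => ?_, fun s b hsb i hi x => ?_⟩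
  · refine tendsto_nhds_unique (hsum x).tendsto_sum_nat ?_
    have : (fun k => ∑ j ∈ Finset.range k, w j x) = fun _ => (0 : R4) := by
      funext k; rw [← Finset.sum_apply, ← hUk, hK k x hx]
    rw [this]; exact tendsto_const_nhds
  · have hdf : ∀ k y, ‖fderiv ℝ (w k) y‖ ≤ v 1 k := fun k y => by
      rw [← norm_iteratedFDeriv_one]; exact hd 1 k y
    have h1 : HasFDerivAt u (∑' k, fderiv ℝ (w k) x) x :=
      hasFDerivAt_tsum (hv 1) (fun k y => ((hw k).1.differentiable (by norm_num) y).hasFDerivAt)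
        hdf (hsum 0).summable x
    rw [h1.fderiv]
    have h2 : ∀ k, fderiv ℝ (U k) x = ∑ j ∈ Finset.range k, fderiv ℝ (w j) x := fun k => by
      rw [hUk, fderiv_sum fun j _ => (hw j).1.differentiable (by norm_num) x]
    simp only [h2]
    exact (Summable.of_norm_bounded (hv 1) fun k => hdf k x).hasSum.tendsto_sum_nat
  · have h1 : iteratedFDeriv ℝ i u x = ∑' k, iteratedFDeriv ℝ i (w k) x :=
      iteratedFDeriv_tsum_apply (N := ⊤) (fun k => (hw k).1) (fun i _ => hv i)
        (fun i k x _ => hd i k x) le_top x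
    have h2 : HasSum (fun k => iteratedFDeriv ℝ i (w k) x) (iteratedFDeriv ℝ i u x) := by
      rw [h1]; exact (Summable.of_norm_bounded (hv i) fun k => hd i k x).hasSum
    refine le_of_tendsto h2.tendsto_sum_nat.norm (.of_forall fun k => ?_)
    have := hsb k i hi x
    rwa [hUk, iteratedFDeriv_sum_apply
      (fun j _ => ((hw j).1.of_le (by exact_mod_cast le_top)).contDiffAt)] at this

end Vale.Agent.P205F.NM
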