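import Vale.Agent.P205F.NashMoser.Calc

/-!
# P205, Nash-Moser: the residual and the right inverse applied to it

The unknown is `u`, the map is `f + lam • u`; `res` is the normalised error, so that
`lam • res = g - met (f + lam • u)` when `lam • e = g - met f`.
-/

namespace Vale.Agent.P205F.NM

open scoped ContDiff Topology
open Filter

set_option maxSynthPendingDepth 3

variable {X : Type} [NormedAddCommGroup X] [NormedSpace ℝ X]

/-- The normalised error. -/
noncomputable def res (f : E2 → R4) (e : E2 → S3) (lam : ℝ) (u : E2 → R4) (x : E2) : S3 :=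
  e x - Lin f u x - lam • met u x

/-- The right inverse at `f + lam • u` applied to the residual. -/
noncomputable def pop (D : Inv) (f : E2 → R4) (e : E2 → S3) (lam : ℝ) (u : E2 → R4) : E2 → R4 :=
  D.app (f + lam • u) (res f e lam u)

lemma iterated_zero_off {K : Set E2} (hK : IsClosed K) {u : E2 → X} (hu : ∀ x ∉ K, u x = 0)
    {x : E2} (hx : x ∉ K) (i : ℕ) : iteratedFDeriv ℝ i u x = 0 := by
  have h : u =ᶠ[𝓝 x] 0 := by
    filter_upwards [hK.isOpen_compl.mem_nhds hx] with y hy using hu y hy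
  rw [(h.iteratedFDeriv ℝ i).eq_of_nhds]
  exact congrFun (iteratedFDeriv_fun_zero (𝕜 := ℝ) (E := E2) (F := X)) x

lemma fderiv_zero_off {K : Set E2} (hK : IsClosed K) {u : E2 → X} (hu : ∀ x ∉ K, u x = 0)
    {x : E2} (hx : x ∉ K) : fderiv ℝ u x = 0 := by
  have h := iterated_zero_off hK hu hx 1
  rw [← norm_eq_zero, norm_iteratedFDeriv_one, norm_eq_zero] at h
  exact h

lemma sm_of_zero_off {K : Set E2} (hK : IsCompact K) {u : E2 → X} (h : ContDiff ℝ ∞ u)
    (hu : ∀ x ∉ K, u x = 0) : Sm u := by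
  refine ⟨h, fun i => ?_⟩
  exact (h.continuous_iteratedFDeriv (by exact_mod_cast le_top)).bounded_above_of_compact_support
    (HasCompactSupport.intro hK fun x hx => iterated_zero_off hK.isClosed hu hx i)

lemma smooth_smul {n : WithTop ℕ∞} {u : E2 → R4} (hu : ContDiff ℝ n u) (a : ℝ) :
    ContDiff ℝ n (a • u) := hu.const_smul a

lemma smooth_lin {f u : E2 → R4} (hf : ContDiff ℝ ∞ f) (hu : ContDiff ℝ ∞ u) :
    ContDiff ℝ ∞ (Lin f u) := by
  rw [show Lin f u = fun x => quad (fderiv ℝ f x) (fderiv ℝ u x) from funext (lin_eq f u)]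
  exact (quad.contDiff.comp (hf.fderiv_right (m := ∞) (by exact_mod_cast le_top))).clm_apply
    (hu.fderiv_right (m := ∞) (by exact_mod_cast le_top))

lemma smooth_met {f : E2 → R4} (hf : ContDiff ℝ ∞ f) : ContDiff ℝ ∞ (met f) := by
  rw [show met f = fun x => (1 / 2 : ℝ) • quad (fderiv ℝ f x) (fderiv ℝ f x) from funext (met_eq f)]
  exact (contDiff_const (c := (1 / 2 : ℝ))).smul ((quad.contDiff.comp (hf.fderiv_right (m := ∞) (by exact_mod_cast le_top))).clm_apply
    (hf.fderiv_right (m := ∞) (by exact_mod_cast le_top)))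

lemma res_smooth {f : E2 → R4} {e : E2 → S3} {u : E2 → R4} (hf : ContDiff ℝ ∞ f)
    (he : ContDiff ℝ ∞ e) (hu : ContDiff ℝ ∞ u) (lam : ℝ) : ContDiff ℝ ∞ (res f e lam u) :=
  (he.sub (smooth_lin hf hu)).sub ((smooth_met hu).const_smul lam)

lemma res_zero_off {f : E2 → R4} {e : E2 → S3} {u : E2 → R4} {K : Set E2} (hK : IsClosed K)
    (he : ∀ x ∉ K, e x = 0) (hu : ∀ x ∉ K, u x = 0) (lam : ℝ) {x : E2} (hx : x ∉ K) :
    res f e lam u x = 0 := by
  simp [res, he x hx, lin_eq, met_eq, fderiv_zero_off hK hu hx]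

lemma pop_zero_off (D : Inv) {f : E2 → R4} {e : E2 → S3} {u : E2 → R4} {K : Set E2}
    (hK : IsClosed K) (he : ∀ x ∉ K, e x = 0) (hu : ∀ x ∉ K, u x = 0) (lam : ℝ) {x : E2}
    (hx : x ∉ K) : pop D f e lam u x = 0 := by
  have h : ∀ i, iteratedFDeriv ℝ i (res f e lam u) x = 0 :=
    iterated_zero_off hK (fun y hy => res_zero_off hK he hu lam hy) hx
  simp [pop, Inv.app, h]

lemma pop_smoothOn (D : Inv) {f : E2 → R4} {e : E2 → S3} {u : E2 → R4} (hf : ContDiff ℝ ∞ f)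
    (he : ContDiff ℝ ∞ e) (hu : ContDiff ℝ ∞ u) (lam : ℝ) {U : Set E2}
    (hden : ∀ y ∈ U, 0 < D.den (jet D.N (f + lam • u) y)) :
    ContDiffOn ℝ ∞ (pop D f e lam u) U := by
  unfold pop Inv.app
  exact ContDiffOn.sum fun k _ =>
    ((D.coef_smooth k).comp (contDiff_jet D.N (hf.add (smooth_smul hu lam))).contDiffOn
      fun y hy => hden y hy).clm_apply
      ((res_smooth hf he hu lam).iteratedFDeriv_right (by exact_mod_cast le_top)).contDiffOn

lemma pop_smooth (D : Inv) {f : E2 → R4} {e : E2 → S3} {u : E2 → R4} (hf : ContDiff ℝ ∞ f)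
    (he : ContDiff ℝ ∞ e) (hu : ContDiff ℝ ∞ u) (lam : ℝ) {U K : Set E2} (hU : IsOpen U)
    (hK : IsClosed K) (hKU : K ⊆ U) (he0 : ∀ x ∉ K, e x = 0) (hu0 : ∀ x ∉ K, u x = 0)
    (hden : ∀ y ∈ U, 0 < D.den (jet D.N (f + lam • u) y)) :
    ContDiff ℝ ∞ (pop D f e lam u) := by
  rw [contDiff_iff_contDiffAt]
  intro x
  by_cases hx : x ∈ U
  · exact (pop_smoothOn D hf he hu lam hden).contDiffAt (hU.mem_nhds hx)
  · refine (contDiffAt_const (c := (0 : R4))).congr_of_eventuallyEq ?_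
    filter_upwards [hK.isOpen_compl.mem_nhds fun h => hx (hKU h)] with y hy
    exact pop_zero_off D hK he0 hu0 lam hy

/-- The exact inversion, everywhere. -/
lemma lin_pop (D : Inv) {f : E2 → R4} {e : E2 → S3} {u : E2 → R4} (hf : ContDiff ℝ ∞ f)
    (he : ContDiff ℝ ∞ e) (hu : ContDiff ℝ ∞ u) (lam : ℝ) {U K : Set E2}
    (hK : IsClosed K) (hKU : K ⊆ U) (he0 : ∀ x ∉ K, e x = 0) (hu0 : ∀ x ∉ K, u x = 0)
    (hden : ∀ y ∈ U, 0 < D.den (jet D.N (f + lam • u) y)) (x : E2) :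
    Lin (f + lam • u) (pop D f e lam u) x = res f e lam u x := by
  by_cases hx : x ∈ U
  · exact D.inverts _ _ (hf.add (smooth_smul hu lam)) (res_smooth hf he hu lam) x (hden x hx)
  · have hx' : x ∉ K := fun h => hx (hKU h)
    rw [res_zero_off hK he0 hu0 lam hx', lin_eq,
      fderiv_zero_off hK (fun y hy => pop_zero_off D hK he0 hu0 lam hy) hx', map_zero]

/-- The exact quadratic expansion. -/
lemma res_add {f : E2 → R4} {e : E2 → S3} {u w : E2 → R4} (hf : ContDiff ℝ ∞ f)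
    (hu : ContDiff ℝ ∞ u) (hw : ContDiff ℝ ∞ w) (lam : ℝ) (x : E2) :
    res f e lam (u + w) x = res f e lam u x - Lin (f + lam • u) w x - lam • met w x := by
  have df := hf.differentiable (by norm_num) x
  have du := hu.differentiable (by norm_num) x
  have dw := hw.differentiable (by norm_num) x
  simp only [res, met_add du dw, lin_eq, fderiv_add du dw, fderiv_add df (du.const_smul lam),
    fderiv_const_smul du lam, map_add, map_smul, add_apply,
    smul_apply, smul_add]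
  abel

/-- Growth of the residual. -/
lemma res_grow (n : ℕ) : ∃ C, 0 ≤ C ∧ ∀ (U : Set E2) (f : E2 → R4) (e : E2 → S3) (u : E2 → R4)
    (lam β Θ : ℝ), IsOpen U → ContDiff ℝ ∞ f → ContDiff ℝ ∞ e → ContDiff ℝ ∞ u → |lam| ≤ 1 →
    1 ≤ β → 1 ≤ Θ → ∀ x ∈ U,
    (∀ i ≤ n, ‖iteratedFDeriv ℝ (i + 1) f x‖ ≤ β) →
    (∀ i ≤ n, ‖iteratedFDeriv ℝ i e x‖ ≤ β) →
    (∀ i ≤ n, ‖iteratedFDeriv ℝ (i + 1) u x‖ ≤ β * Θ ^ i) →
    Grow n (res f e lam u) (C * β ^ 2) Θ x := by
  refine ⟨1 + ‖quad‖ * 2 ^ n * 2, by positivity,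
    fun U f e u lam β Θ hU hf he hu hlam hβ hΘ x hx hfb heb hub i hi => ?_⟩
  set m : E2 → R4 := f + (lam / 2) • u
  have hm : ContDiff ℝ ∞ m := hf.add (smooth_smul hu _)
  have heq : res f e lam u = fun y => e y - quad (fderiv ℝ m y) (fderiv ℝ u y) := by
    funext y
    have du := hu.differentiable (by norm_num) y
    simp only [res, lin_eq, met_eq, m, fderiv_add (hf.differentiable (by norm_num) y)
      (du.const_smul (lam / 2)), fderiv_const_smul du (lam / 2), map_add, map_smul,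
      add_apply, smul_apply, smul_smul]
    rw [show lam * (1 / 2) = lam / 2 by ring]
    abel
  have hmb : ∀ j ≤ n, ‖iteratedFDeriv ℝ j (fderiv ℝ m) x‖ ≤ 2 * β * Θ ^ j := by
    intro j hj
    have hu' : ContDiff ℝ ((j + 1 : ℕ) : WithTop ℕ∞) u := hu.of_le (by exact_mod_cast le_top)
    rw [norm_iteratedFDeriv_fderiv, iteratedFDeriv_add_apply
      (hf.of_le (by exact_mod_cast le_top)).contDiffAt (smooth_smul hu' _).contDiffAt,
      iteratedFDeriv_const_smul_apply hu'.contDiffAt]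
    refine (norm_add_le _ _).trans ?_
    rw [norm_smul, Real.norm_eq_abs]
    have h1 : β ≤ β * Θ ^ j := le_mul_of_one_le_right (by linarith) (one_le_pow₀ hΘ)
    have h2 : |lam / 2| * ‖iteratedFDeriv ℝ (j + 1) u x‖ ≤ β * Θ ^ j :=
      (mul_le_of_le_one_left (norm_nonneg _) (by rw [abs_div, abs_two]; linarith)).trans (hub j hj)
    linarith [hfb j hj]
  have hq := norm_bilin_le hU quad (hm.fderiv_right (m := ∞) (by exact_mod_cast le_top)).contDiffOn
    (hu.fderiv_right (m := ∞) (by exact_mod_cast le_top)).contDiffOn hx (n := i)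
    (a := 2 * β) (b := β) (Θ := Θ) (fun j hj => hmb j (hj.trans hi))
    (fun j hj => by rw [norm_iteratedFDeriv_fderiv]; exact hub j (hj.trans hi))
  have hs : ContDiff ℝ ∞ fun y => quad (fderiv ℝ m y) (fderiv ℝ u y) :=
    (quad.contDiff.comp (hm.fderiv_right (m := ∞) (by exact_mod_cast le_top))).clm_apply
      (hu.fderiv_right (m := ∞) (by exact_mod_cast le_top))
  rw [heq, fun_iteratedFDeriv_sub_apply (he.of_le (by exact_mod_cast le_top)).contDiffAt
    (hs.of_le (by exact_mod_cast le_top)).contDiffAt]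
  refine (norm_sub_le _ _).trans ?_
  have e1 : ‖iteratedFDeriv ℝ i e x‖ ≤ β ^ 2 * Θ ^ i :=
    (heb i hi).trans ((le_self_pow₀ hβ two_ne_zero).trans
      (le_mul_of_one_le_right (by positivity) (one_le_pow₀ hΘ)))
  have e2 : ‖quad‖ * 2 ^ i * (2 * β * β) * Θ ^ i ≤ ‖quad‖ * 2 ^ n * 2 * (β ^ 2 * Θ ^ i) := by
    have e3 : (2 : ℝ) ^ i ≤ 2 ^ n := pow_le_pow_right₀ one_le_two hi
    calc ‖quad‖ * 2 ^ i * (2 * β * β) * Θ ^ i = ‖quad‖ * 2 ^ i * 2 * (β ^ 2 * Θ ^ i) := by ring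
      _ ≤ _ := by gcongr
  have e4 : (1 + ‖quad‖ * 2 ^ n * 2) * β ^ 2 * Θ ^ i =
      β ^ 2 * Θ ^ i + ‖quad‖ * 2 ^ n * 2 * (β ^ 2 * Θ ^ i) := by ring
  linarith

/-- Bounds for `pop`: growth with loss `L`, and the low bound by the residual. -/
lemma pop_bound (D : Inv) (n : ℕ) : ∃ (C : ℝ) (m : ℕ), 0 ≤ C ∧
    ∀ (U : Set E2) (f : E2 → R4) (e : E2 → S3) (u : E2 → R4) (lam β Θ : ℝ), IsOpen U →
    ContDiff ℝ ∞ f → ContDiff ℝ ∞ e → ContDiff ℝ ∞ u → |lam| ≤ 1 → 1 ≤ β → 1 ≤ Θ →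
    (∀ y ∈ U, 0 < D.den (jet D.N (f + lam • u) y)) → ∀ x ∈ U,
    β⁻¹ ≤ D.den (jet D.N (f + lam • u) x) →
    (∀ i ≤ n + D.L, ∀ l ≤ max D.N 1, ‖iteratedFDeriv ℝ (i + l) f x‖ ≤ β) →
    (∀ i ≤ n + D.L, ‖iteratedFDeriv ℝ i e x‖ ≤ β) →
    (∀ i ≤ D.N, ‖iteratedFDeriv ℝ i u x‖ ≤ β) →
    (∀ i ≤ n + D.L, ∀ l ≤ max D.N 1, ‖iteratedFDeriv ℝ (i + l) u x‖ ≤ β * Θ ^ i) →
    Grow n (pop D f e lam u) (C * β ^ m * Θ ^ D.L) Θ x ∧
    ∀ A, (∀ i ≤ D.L, ‖iteratedFDeriv ℝ i (res f e lam u) x‖ ≤ A) →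
      ‖pop D f e lam u x‖ ≤ C * β ^ m * A := by
  choose c m hc hcg using fun k => coef_grow D k n
  obtain ⟨Cr, hCr, hres⟩ := res_grow (n + D.L)
  set m0 := ∑ k, m k
  refine ⟨∑ k, c k * 2 ^ m k * (1 + 2 ^ n * Cr), m0 + 2,
    Finset.sum_nonneg fun k _ => by have := hc k; positivity,
    fun U f e u lam β Θ hU hf he hu hlam hβ hΘ hpos x hx hden hfb heb hu0 hub => ?_⟩
  set F := f + lam • u
  have hF : ContDiff ℝ ∞ F := hf.add (smooth_smul hu lam)
  have hFd : ∀ i, iteratedFDeriv ℝ i F x = iteratedFDeriv ℝ i f x + lam • iteratedFDeriv ℝ i u x :=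
    fun i => by
      have hu' : ContDiff ℝ (i : WithTop ℕ∞) u := hu.of_le (by exact_mod_cast le_top)
      simp only [F]
      rw [iteratedFDeriv_add_apply (hf.of_le (by exact_mod_cast le_top)).contDiffAt
        (smooth_smul hu' _).contDiffAt, iteratedFDeriv_const_smul_apply hu'.contDiffAt]
  have hsm : ∀ i b, ‖iteratedFDeriv ℝ i u x‖ ≤ b → ‖iteratedFDeriv ℝ i F x‖ ≤
      ‖iteratedFDeriv ℝ i f x‖ + b := fun i b hb => by
    rw [hFd]
    refine (norm_add_le _ _).trans (add_le_add le_rfl ?_)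
    rw [norm_smul, Real.norm_eq_abs]
    exact (mul_le_of_le_one_left (norm_nonneg _) hlam).trans hb
  have hco : ∀ k, Grow n (fun y => D.coef k (jet D.N F y)) (c k * 2 ^ m k * β ^ m0) Θ x := by
    intro k i hi
    refine (hcg k U F (2 * β) Θ hU hF (by linarith) hΘ hpos x hx ?_ ?_ ?_ i hi).trans ?_
    · refine le_trans ?_ hden
      exact inv_anti₀ (by linarith) (by linarith)
    · intro j hj
      refine (hsm j β (hu0 j hj)).trans ?_
      have := hfb 0 (Nat.zero_le _) j (hj.trans (le_max_left _ _))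
      rw [Nat.zero_add] at this
      linarith
    · intro j hj l hl
      have hl' := hl.trans (le_max_left D.N 1)
      refine (hsm _ _ (hub j (hj.trans (Nat.le_add_right _ _)) l hl')).trans ?_
      have h1 := hfb j (hj.trans (Nat.le_add_right _ _)) l hl'
      have h2 : β ≤ β * Θ ^ j := le_mul_of_one_le_right (by linarith) (one_le_pow₀ hΘ)
      linarith
    · rw [mul_pow, ← mul_assoc]
      have := hc k
      gcongr
      exact Finset.single_le_sum (fun l _ => Nat.zero_le (m l)) (Finset.mem_univ k)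
  have hR : Grow (n + D.L) (res f e lam u) (Cr * β ^ 2) Θ x :=
    hres U f e u lam β Θ hU hf he hu hlam hβ hΘ x hx
      (fun i hi => hfb i hi 1 (le_max_right _ _)) heb (fun i hi => hub i hi 1 (le_max_right _ _))
  have hrs := res_smooth hf he hu lam
  have hcs : ∀ k, ContDiffOn ℝ ∞ (fun y => D.coef k (jet D.N F y)) U := fun k =>
    (D.coef_smooth k).comp (contDiff_jet D.N hF).contDiffOn fun y hy => hpos y hy
  refine ⟨fun i hi => ?_, fun A hA => ?_⟩
  · have hterm : ∀ k, ContDiffAt ℝ i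
        (fun y => D.coef k (jet D.N F y) (iteratedFDeriv ℝ (k : ℕ) (res f e lam u) y)) x := fun k =>
      (((hcs k).clm_apply (hrs.iteratedFDeriv_right (by exact_mod_cast le_top)).contDiffOn).contDiffAt
        (hU.mem_nhds hx)).of_le (by exact_mod_cast le_top)
    have heq : pop D f e lam u = ∑ k, fun y =>
        D.coef k (jet D.N F y) (iteratedFDeriv ℝ (k : ℕ) (res f e lam u) y) := by
      funext y; simp [pop, Inv.app, F]
    rw [heq, iteratedFDeriv_sum_apply (fun k _ => hterm k)]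
    refine (norm_sum_le _ _).trans ?_
    rw [Finset.sum_mul, Finset.sum_mul, Finset.sum_mul]
    refine Finset.sum_le_sum fun k _ => ?_
    have hb : Grow i (iteratedFDeriv ℝ (k : ℕ) (res f e lam u)) (Cr * β ^ 2 * Θ ^ D.L) Θ x := by
      intro j hj
      rw [norm_iterated_iterated]
      have hk : (k : ℕ) ≤ D.L := Nat.lt_succ_iff.1 k.2
      refine (hR (j + k) (by omega)).trans ?_
      rw [pow_add, mul_assoc (Cr * β ^ 2), mul_comm (Θ ^ j)]
      gcongr
    have := norm_bilin_le hU (ContinuousLinearMap.id ℝ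
        (ContinuousMultilinearMap ℝ (fun _ : Fin (k : ℕ) => E2) S3 →L[ℝ] R4))
      (hcs k) (hrs.iteratedFDeriv_right (by exact_mod_cast le_top)).contDiffOn hx
      (fun j hj => hco k j (hj.trans hi)) hb
    refine this.trans ?_
    have := hc k
    calc ‖ContinuousLinearMap.id ℝ
          (ContinuousMultilinearMap ℝ (fun _ : Fin (k : ℕ) => E2) S3 →L[ℝ] R4)‖ * 2 ^ i *
          (c k * 2 ^ m k * β ^ m0 * (Cr * β ^ 2 * Θ ^ D.L)) * Θ ^ i
        ≤ 1 * 2 ^ n * (c k * 2 ^ m k * β ^ m0 * (Cr * β ^ 2 * Θ ^ D.L)) * Θ ^ i := by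
          gcongr
          exacts [ContinuousLinearMap.norm_id_le, one_le_two]
      _ = c k * 2 ^ m k * (2 ^ n * Cr) * β ^ (m0 + 2) * Θ ^ D.L * Θ ^ i := by ring
      _ ≤ _ := by gcongr; linarith
  · have hA0 : 0 ≤ A := (norm_nonneg _).trans (hA 0 (Nat.zero_le _))
    simp only [pop, Inv.app]
    refine (norm_sum_le _ _).trans ?_
    rw [Finset.sum_mul, Finset.sum_mul]
    refine Finset.sum_le_sum fun k _ => ?_
    refine ((D.coef k _).le_opNorm _).trans ?_
    have h0 := hco k 0 (Nat.zero_le _)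
    rw [norm_iteratedFDeriv_zero, pow_zero, mul_one] at h0
    have := hc k
    calc ‖D.coef k (jet D.N F x)‖ * ‖iteratedFDeriv ℝ (k : ℕ) (res f e lam u) x‖
        ≤ c k * 2 ^ m k * β ^ m0 * A :=
          mul_le_mul h0 (hA k (Nat.lt_succ_iff.1 k.2)) (norm_nonneg _) (by positivity)
      _ = c k * 2 ^ m k * 1 * β ^ m0 * A := by ring
      _ ≤ _ := by
          gcongr
          · have : (0 : ℝ) ≤ 2 ^ n * Cr := by positivity
            linarith
          · omega

end Vale.Agent.P205F.NM
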