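import Vale.Agent.P205F.NashMoser.Limit
import Vale.Agent.P205F.NashMoser.Iterate

/-!
# P205, Nash-Moser: the estimates fed into the iteration

At scale `T`: the smoothing parameter is `T^3`, the growth scale `T^2`.
-/

namespace Vale.Agent.P205F.NM

open scoped ContDiff

set_option maxSynthPendingDepth 3

variable {D : Inv} {k0 n : ℕ} {U K : Set E2} {f : E2 → R4} {e : E2 → S3} {lam β Θ : ℝ}
  {u : E2 → R4}

/-- An admissible stage of the iteration, with growth constant `β` up to level `n`. -/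
structure Stage (D : Inv) (k0 n : ℕ) (U K : Set E2) (f : E2 → R4) (e : E2 → S3) (lam β Θ : ℝ)
    (u : E2 → R4) : Prop where
  hU : IsOpen U
  hK : IsCompact K
  hKU : K ⊆ U
  hN : max D.N 1 ≤ k0
  hf : ContDiff ℝ ∞ f
  he : ContDiff ℝ ∞ e
  hu : ContDiff ℝ ∞ u
  he0 : ∀ x ∉ K, e x = 0
  hu0 : ∀ x ∉ K, u x = 0
  hlam : |lam| ≤ 1
  hβ : 1 ≤ β
  hΘ : 1 ≤ Θ
  hden : ∀ y ∈ U, β⁻¹ ≤ D.den (jet D.N (f + lam • u) y)
  hfb : ∀ i ≤ n + D.L, ∀ l ≤ k0, ∀ x ∈ U, ‖iteratedFDeriv ℝ (i + l) f x‖ ≤ β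
  heb : ∀ i ≤ n + D.L, ∀ x, ‖iteratedFDeriv ℝ i e x‖ ≤ β
  hub : ∀ i ≤ n + D.L, ∀ l ≤ k0, ∀ x, ‖iteratedFDeriv ℝ (i + l) u x‖ ≤ β * Θ ^ i

lemma Stage.pos (h : Stage D k0 n U K f e lam β Θ u) :
    ∀ y ∈ U, 0 < D.den (jet D.N (f + lam • u) y) := fun y hy =>
  lt_of_lt_of_le (inv_pos.2 (lt_of_lt_of_le one_pos h.hβ)) (h.hden y hy)

lemma Stage.popSm (h : Stage D k0 n U K f e lam β Θ u) : Sm (pop D f e lam u) :=
  sm_of_zero_off h.hK (pop_smooth D h.hf h.he h.hu lam h.hU h.hK.isClosed h.hKU h.he0 h.hu0 h.pos)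
    fun _ hx => pop_zero_off D h.hK.isClosed h.he0 h.hu0 lam hx

lemma Stage.resSm (h : Stage D k0 n U K f e lam β Θ u) : Sm (res f e lam u) :=
  sm_of_zero_off h.hK (res_smooth h.hf h.he h.hu lam)
    fun _ hx => res_zero_off h.hK.isClosed h.he0 h.hu0 lam hx

lemma res_bnd (D : Inv) (n : ℕ) : ∃ C, 0 ≤ C ∧ ∀ {k0 : ℕ} {U K : Set E2} {f : E2 → R4}
    {e : E2 → S3} {lam β Θ : ℝ} {u : E2 → R4}, Stage D k0 n U K f e lam β Θ u →
    Bnd (n + D.L) (res f e lam u) (C * β ^ 2 * Θ ^ (n + D.L)) := by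
  obtain ⟨C, hC, h⟩ := res_grow (n + D.L)
  refine ⟨C, hC, fun {k0 U K f e lam β Θ u} S i hi x => ?_⟩
  by_cases hx : x ∈ U
  · have h1 : 1 ≤ k0 := (le_max_right _ _).trans S.hN
    refine (h U f e u lam β Θ S.hU S.hf S.he S.hu S.hlam S.hβ S.hΘ x hx
      (fun i hi => S.hfb i hi 1 h1 x hx) (fun i hi => S.heb i hi x)
      (fun i hi => S.hub i hi 1 h1 x) i hi).trans ?_
    gcongr
    exact S.hΘ
  · rw [iterated_zero_off S.hK.isClosed (fun y hy => res_zero_off S.hK.isClosed S.he0 S.hu0 lam hy)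
      (fun hxK => hx (S.hKU hxK)) i, norm_zero]
    have := S.hβ; have := S.hΘ
    positivity

lemma pop_bnd (D : Inv) (n : ℕ) : ∃ (C : ℝ) (m : ℕ), 0 ≤ C ∧ ∀ {k0 : ℕ} {U K : Set E2}
    {f : E2 → R4} {e : E2 → S3} {lam β Θ : ℝ} {u : E2 → R4}, Stage D k0 n U K f e lam β Θ u →
    Bnd n (pop D f e lam u) (C * β ^ m * Θ ^ (n + D.L)) ∧
    ∀ A, Bnd D.L (res f e lam u) A → ∀ x, ‖pop D f e lam u x‖ ≤ C * β ^ m * A := by
  obtain ⟨C, m, hC, h⟩ := pop_bound D n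
  refine ⟨C, m, hC, fun {k0 U K f e lam β Θ u} S => ?_⟩
  have hβ := S.hβ; have hΘ := S.hΘ
  have key : ∀ x ∈ U, _ := fun x hx =>
    h U f e u lam β Θ S.hU S.hf S.he S.hu S.hlam hβ hΘ S.pos x hx (S.hden x hx)
      (fun i hi l hl => S.hfb i hi l (hl.trans S.hN) x hx) (fun i hi => S.heb i hi x)
      (fun i hi => by
        have h0 := S.hub 0 (Nat.zero_le _) i (hi.trans ((le_max_left _ _).trans S.hN)) x
        rwa [Nat.zero_add, pow_zero, mul_one] at h0)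
      (fun i hi l hl => S.hub i hi l (hl.trans S.hN) x)
  have hoff : ∀ x ∉ U, ∀ i, iteratedFDeriv ℝ i (pop D f e lam u) x = 0 := fun x hx i =>
    iterated_zero_off S.hK.isClosed (fun y hy => pop_zero_off D S.hK.isClosed S.he0 S.hu0 lam hy)
      (fun hxK => hx (S.hKU hxK)) i
  refine ⟨fun i hi x => ?_, fun A hA x => ?_⟩
  · by_cases hx : x ∈ U
    · refine ((key x hx).1 i hi).trans ?_
      rw [mul_assoc, ← pow_add]
      exact mul_le_mul_of_nonneg_left (pow_le_pow_right₀ hΘ (by omega)) (by positivity)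
    · rw [hoff x hx, norm_zero]; positivity
  · by_cases hx : x ∈ U
    · exact (key x hx).2 A fun i hi => hA i hi x
    · rw [← norm_iteratedFDeriv_zero (𝕜 := ℝ), hoff x hx, norm_zero]
      have : 0 ≤ A := (norm_nonneg _).trans (hA 0 (Nat.zero_le _) x)
      positivity

/-- Interpolation through smoothing, and the resulting low bound. -/
lemma low_est (D : Inv) (N : ℕ) (hN : 1 ≤ N) : ∃ (C : ℝ) (m : ℕ), 0 ≤ C ∧ ∀ {k0 : ℕ}
    {U K : Set E2} {f : E2 → R4} {e : E2 → S3} {lam β T : ℝ} {u : E2 → R4}, 1 ≤ T →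
    Stage D k0 N U K f e lam β (T ^ 2) u → ∀ A, 0 ≤ A → (∀ x, ‖res f e lam u x‖ ≤ A) →
    ∀ x, ‖pop D f e lam u x‖ ≤
      C * β ^ m * (T ^ (3 * D.L) * A + T ^ (3 * D.L + 2 * N + 2) / T ^ (3 * N)) := by
  obtain ⟨Cp, m, hCp, hp⟩ := pop_bnd D N
  obtain ⟨Cr, hCr, hr⟩ := res_bnd D N
  obtain ⟨Cg, hCg, hg⟩ := smooth_gain (G := S3) D.L
  choose c hc0 hc using fun i => smooth_sub N hN i (G := S3)
  set Cc := ∑ i ∈ Finset.range (D.L + 1), c i
  have hCc : 0 ≤ Cc := Finset.sum_nonneg fun i _ => hc0 i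
  refine ⟨Cp * (Cg + Cc * Cr), m + 2, by positivity,
    fun {k0 U K f e lam β T u} hT S A hA hres x => ?_⟩
  have hβ := S.hβ
  have hT3 : (1 : ℝ) ≤ T ^ 3 := one_le_pow₀ hT
  have hrs := S.resSm
  have hI : Bnd D.L (res f e lam u)
      (Cg * (T ^ 3) ^ D.L * A + Cc * (Cr * β ^ 2 * (T ^ 2) ^ (N + D.L)) / (T ^ 3) ^ N) := by
    intro i hi y
    have e1 := hg (T ^ 3) hT3 _ A hA hrs hres i hi y
    have e2 : ‖iteratedFDeriv ℝ i (fun z => res f e lam u z - smooth (T ^ 3) (res f e lam u) z) y‖ ≤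
        Cc * (Cr * β ^ 2 * (T ^ 2) ^ (N + D.L)) / (T ^ 3) ^ N := by
      refine (hc i (T ^ 3) hT3 _ _ hrs (fun j hj => hr S j (by omega)) y).trans ?_
      gcongr
      exact Finset.single_le_sum (fun l _ => hc0 l) (Finset.mem_range.2 (by omega))
    have hsm := hrs.smooth (show (0 : ℝ) < T ^ 3 by positivity)
    have e3 : res f e lam u = (fun z => smooth (T ^ 3) (res f e lam u) z) +
        fun z => res f e lam u z - smooth (T ^ 3) (res f e lam u) z := by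
      funext z; simp
    conv_lhs => rw [e3]
    rw [iteratedFDeriv_add_apply (hsm.1.of_le (by exact_mod_cast le_top)).contDiffAt
      ((hrs.1.sub hsm.1).of_le (by exact_mod_cast le_top)).contDiffAt]
    exact (norm_add_le _ _).trans (add_le_add e1 e2)
  refine ((hp S).2 _ hI x).trans ?_
  have h1 : (T ^ 3) ^ D.L = T ^ (3 * D.L) := by rw [← pow_mul]
  have h2 : (T ^ 2) ^ (N + D.L) ≤ T ^ (3 * D.L + 2 * N + 2) := by
    rw [← pow_mul]; exact pow_le_pow_right₀ hT (by omega)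
  have h3 : (T ^ 3) ^ N = T ^ (3 * N) := by rw [← pow_mul]
  rw [h1, h3]
  calc Cp * β ^ m * (Cg * T ^ (3 * D.L) * A +
        Cc * (Cr * β ^ 2 * (T ^ 2) ^ (N + D.L)) / T ^ (3 * N))
      ≤ Cp * β ^ m * (Cg * β ^ 2 * (T ^ (3 * D.L) * A) +
        Cc * Cr * β ^ 2 * (T ^ (3 * D.L + 2 * N + 2) / T ^ (3 * N))) := by
        refine mul_le_mul_of_nonneg_left (add_le_add ?_ ?_) (by positivity)
        · rw [mul_assoc, mul_assoc]
          exact mul_le_mul_of_nonneg_left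
            (le_mul_of_one_le_left (by positivity) (one_le_pow₀ hβ)) hCg
        · rw [← mul_div_assoc]
          refine div_le_div_of_nonneg_right ?_ (by positivity)
          calc Cc * (Cr * β ^ 2 * (T ^ 2) ^ (N + D.L))
              ≤ Cc * (Cr * β ^ 2 * T ^ (3 * D.L + 2 * N + 2)) := by gcongr
            _ = _ := by ring
    _ ≤ Cp * β ^ m * ((Cg + Cc * Cr) * β ^ 2 *
        (T ^ (3 * D.L) * A + T ^ (3 * D.L + 2 * N + 2) / T ^ (3 * N))) := by
        refine mul_le_mul_of_nonneg_left ?_ (by positivity)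
        have p1 : 0 ≤ T ^ (3 * D.L) * A := by positivity
        have p2 : 0 ≤ T ^ (3 * D.L + 2 * N + 2) / T ^ (3 * N) := by positivity
        have p3 : 0 ≤ Cg * β ^ 2 := by positivity
        have p4 : 0 ≤ Cc * Cr * β ^ 2 := by positivity
        nlinarith [mul_nonneg p3 p2, mul_nonneg p4 p1]
    _ = _ := by ring

/-- The approximation estimate in `C¹`. -/
lemma approx_est (N : ℕ) (hN : 2 ≤ N) : ∃ C, 0 ≤ C ∧ ∀ (T : ℝ) (v : E2 → R4) (M : ℝ), 1 ≤ T →
    0 ≤ M → Sm v → Bnd N v M → Bnd 1 (v - smooth (T ^ 3) v) (C * M * (T ^ 3 / T ^ (3 * N))) := by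
  obtain ⟨c0, h0, hc0⟩ := smooth_sub (N - 1) (by omega) 0 (G := R4)
  obtain ⟨c1, h1, hc1⟩ := smooth_sub (N - 1) (by omega) 1 (G := R4)
  refine ⟨c0 + c1, by positivity, fun T v M hT hM hv hb i hi x => ?_⟩
  have hT3 : (1 : ℝ) ≤ T ^ 3 := one_le_pow₀ hT
  have hd : T ^ 3 / T ^ (3 * N) = 1 / (T ^ 3) ^ (N - 1) := by
    rw [pow_mul, show (T ^ 3) ^ N = T ^ 3 * (T ^ 3) ^ (N - 1) by
      rw [← pow_succ']; congr 1; omega]
    field_simp
  rw [hd, mul_one_div]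
  interval_cases i
  · refine (hc0 _ hT3 v M hv (fun j hj => hb j (by omega)) x).trans ?_
    gcongr; linarith
  · refine (hc1 _ hT3 v M hv (fun j hj => hb j (by omega)) x).trans ?_
    gcongr; linarith

/-- The quadratic error of one step. -/
lemma step_est (S : Stage D k0 n U K f e lam β Θ u) {K' : Set E2} (hK' : IsClosed K')
    (hKK' : K ⊆ K') (hK'U : K' ⊆ U) {w : E2 → R4} (hw : Sm w) (hw0 : ∀ x ∉ K', w x = 0)
    {a b : ℝ} (ha : 0 ≤ a) (hb : 0 ≤ b) (h1 : Bnd 1 (pop D f e lam u - w) a) (h2 : Bnd 1 w b)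
    (x : E2) : ‖res f e lam (u + w) x‖ ≤ 2 * ‖quad‖ * β * (a + b ^ 2) := by
  have hβ := S.hβ
  have hq : 0 ≤ ‖quad‖ := quad.opNorm_nonneg
  set P := pop D f e lam u
  have hP := S.popSm
  rw [res_add S.hf S.hu hw.1 lam x,
    ← lin_pop D S.hf S.he S.hu lam S.hK.isClosed S.hKU S.he0 S.hu0 S.pos x]
  by_cases hx : x ∈ U
  · have e1 : Lin (f + lam • u) P x - Lin (f + lam • u) w x =
        quad (fderiv ℝ (f + lam • u) x) (fderiv ℝ (P - w) x) := by
      rw [lin_eq, lin_eq, fderiv_sub (hP.1.differentiable (by norm_num) x)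
        (hw.1.differentiable (by norm_num) x), map_sub]
    have e2 : ‖fderiv ℝ (f + lam • u) x‖ ≤ 2 * β := by
      have du := S.hu.differentiable (by norm_num) x
      rw [fderiv_add (S.hf.differentiable (by norm_num) x) (du.const_smul lam),
        fderiv_const_smul du lam]
      refine (norm_add_le _ _).trans ?_
      rw [norm_smul, Real.norm_eq_abs]
      have h1 := S.hfb 0 (Nat.zero_le _) 1 ((le_max_right _ _).trans S.hN) x hx
      have h2 := S.hub 0 (Nat.zero_le _) 1 ((le_max_right _ _).trans S.hN) x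
      rw [Nat.zero_add, norm_iteratedFDeriv_one] at h1 h2
      rw [pow_zero, mul_one] at h2
      have := (mul_le_of_le_one_left (norm_nonneg (fderiv ℝ u x)) S.hlam).trans h2
      linarith
    have e3 : ‖fderiv ℝ (P - w) x‖ ≤ a := by rw [← norm_iteratedFDeriv_one]; exact h1 1 le_rfl x
    have e4 : ‖fderiv ℝ w x‖ ≤ b := by rw [← norm_iteratedFDeriv_one]; exact h2 1 le_rfl x
    rw [e1]
    refine (norm_sub_le _ _).trans ?_
    have e5 : ‖quad (fderiv ℝ (f + lam • u) x) (fderiv ℝ (P - w) x)‖ ≤ ‖quad‖ * (2 * β) * a :=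
      (quad.le_opNorm₂ _ _).trans (by gcongr)
    have e6 : ‖lam • met w x‖ ≤ ‖quad‖ * β * b ^ 2 := by
      rw [met_eq, smul_smul, norm_smul, Real.norm_eq_abs, abs_mul]
      refine (mul_le_of_le_one_left (norm_nonneg _) ?_).trans ?_
      · exact mul_le_one₀ S.hlam (abs_nonneg _) (by norm_num)
      refine (quad.le_opNorm₂ _ _).trans ?_
      calc ‖quad‖ * ‖fderiv ℝ w x‖ * ‖fderiv ℝ w x‖ ≤ ‖quad‖ * b * b := by gcongr
        _ = ‖quad‖ * 1 * b ^ 2 := by ring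
        _ ≤ _ := by gcongr
    nlinarith [mul_nonneg (mul_nonneg hq (show (0:ℝ) ≤ β by linarith)) (sq_nonneg b)]
  · have hx' : x ∉ K' := fun h => hx (hK'U h)
    rw [lin_eq, lin_eq, met_eq, fderiv_zero_off hK' hw0 hx',
      fderiv_zero_off hK' (fun y hy => pop_zero_off D S.hK.isClosed S.he0 S.hu0 lam
        fun hk => hy (hKK' hk)) hx']
    simp only [map_zero, smul_zero, sub_self, norm_zero]
    positivity

end Vale.Agent.P205F.NM
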