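import Vale.Agent.P205F.Defs
import Vale.Agent.P205F.NashMoser.Kernel

/-!
# P205, Nash-Moser: smoothing on the plane

`smooth θ u` convolves with `ker θ` in both coordinates. It gains derivatives at cost `θ` each,
approximates to order `θ^{-N}` and enlarges supports by at most `2/√θ`.
-/

namespace Vale.Agent.P205F.NM

open MeasureTheory
open scoped ContDiff

variable {G H : Type} [NormedAddCommGroup G] [NormedSpace ℝ G]
  [NormedAddCommGroup H] [NormedSpace ℝ H]

/-- Smooth with bounded derivatives of every order. -/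
def Sm (u : E2 → G) : Prop :=
  ContDiff ℝ ∞ u ∧ ∀ i, ∃ M, ∀ x, ‖iteratedFDeriv ℝ i u x‖ ≤ M

/-- All derivatives up to order `s` are bounded by `M` everywhere. -/
def Bnd (s : ℕ) (u : E2 → G) (M : ℝ) : Prop := ∀ i ≤ s, ∀ x, ‖iteratedFDeriv ℝ i u x‖ ≤ M

/-- Convolution along the direction `v`. -/
noncomputable def cv (v : E2) (k : ℝ → ℝ) (u : E2 → G) (x : E2) : G := ∫ t, k t • u (x - t • v)

lemma Sm.fderiv {u : E2 → G} (hu : Sm u) : Sm (fderiv ℝ u) := by
  refine ⟨hu.1.fderiv_right (by exact_mod_cast le_top), fun i => ?_⟩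
  obtain ⟨M, hM⟩ := hu.2 (i + 1)
  exact ⟨M, fun x => by rw [norm_iteratedFDeriv_fderiv]; exact hM x⟩

lemma Sm.clm {u : E2 → G} (hu : Sm u) (L : G →L[ℝ] H) : Sm fun x => L (u x) := by
  refine ⟨L.contDiff.comp hu.1, fun i => ?_⟩
  obtain ⟨M, hM⟩ := hu.2 i
  refine ⟨‖L‖ * M, fun x => ?_⟩
  refine (L.norm_iteratedFDeriv_comp_left (hu.1.contDiffAt) (by exact_mod_cast le_top)).trans ?_
  exact mul_le_mul_of_nonneg_left (hM x) (norm_nonneg _)

lemma integrable_cv {k : ℝ → ℝ} (hk : Continuous k) (hs : HasCompactSupport k) {u : E2 → G}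
    (hu : Continuous u) (v x : E2) : Integrable fun t => k t • u (x - t • v) :=
  (hk.smul (hu.comp (by fun_prop))).integrable_of_hasCompactSupport hs.smul_right

lemma norm_cv_le {k : ℝ → ℝ} (hk : Continuous k) (hs : HasCompactSupport k) {u : E2 → G} {M : ℝ}
    (hM : ∀ x, ‖u x‖ ≤ M) (v x : E2) : ‖cv v k u x‖ ≤ (∫ t, |k t|) * M := by
  refine (norm_integral_le_integral_norm _).trans ?_
  rw [← integral_mul_const]
  refine integral_mono_of_nonneg (.of_forall fun _ => norm_nonneg _)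
    ((hk.integrable_of_hasCompactSupport hs).abs.mul_const _) (.of_forall fun t => ?_)
  simp only [norm_smul, Real.norm_eq_abs]
  exact mul_le_mul_of_nonneg_left (hM _) (abs_nonneg _)

lemma hasFDerivAt_cv {k : ℝ → ℝ} (hk : Continuous k) (hs : HasCompactSupport k) {u : E2 → G}
    (hu : Sm u) (v x : E2) : HasFDerivAt (cv v k u) (cv v k (_root_.fderiv ℝ u) x) x := by
  obtain ⟨M, hM⟩ := hu.2 1
  have hd : Differentiable ℝ u := hu.1.differentiable (by norm_num)
  have hc : Continuous (_root_.fderiv ℝ u) := hu.fderiv.1.continuous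
  refine hasFDerivAt_integral_of_dominated_of_fderiv_le (μ := volume)
    (F := fun y t => k t • u (y - t • v))
    (F' := fun y t => k t • _root_.fderiv ℝ u (y - t • v))
    (bound := fun t => |k t| * M) Filter.univ_mem
    (.of_forall fun y => (integrable_cv hk hs hu.1.continuous v y).aestronglyMeasurable)
    (integrable_cv hk hs hu.1.continuous v x) (integrable_cv hk hs hc v x).aestronglyMeasurable
    (.of_forall fun t y _ => ?_) ((hk.integrable_of_hasCompactSupport hs).abs.mul_const _)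
    (.of_forall fun t y _ => ?_)
  · rw [norm_smul, Real.norm_eq_abs]
    refine mul_le_mul_of_nonneg_left ?_ (abs_nonneg _)
    rw [← norm_iteratedFDeriv_one]; exact hM _
  · exact ((hd _).hasFDerivAt.comp y ((hasFDerivAt_id y).sub_const _)).const_smul (k t)

lemma fderiv_cv {k : ℝ → ℝ} (hk : Continuous k) (hs : HasCompactSupport k) {u : E2 → G}
    (hu : Sm u) (v : E2) : _root_.fderiv ℝ (cv v k u) = cv v k (_root_.fderiv ℝ u) := by
  funext x; exact (hasFDerivAt_cv hk hs hu v x).fderiv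

lemma cv_iter {k : ℝ → ℝ} (hk : Continuous k) (hs : HasCompactSupport k) (v : E2) (n : ℕ) :
    ∀ {G : Type} [NormedAddCommGroup G] [NormedSpace ℝ G] {u : E2 → G}, Sm u →
      ContDiff ℝ n (cv v k u) ∧ ∀ M : ℝ, (∀ x, ‖iteratedFDeriv ℝ n u x‖ ≤ M) →
        ∀ x, ‖iteratedFDeriv ℝ n (cv v k u) x‖ ≤ (∫ t, |k t|) * M := by
  induction n with
  | zero =>
    intro G _ _ u hu
    refine ⟨contDiff_zero.2 (Differentiable.continuous (𝕜 := ℝ) fun x =>
      (hasFDerivAt_cv hk hs hu v x).differentiableAt), fun M hM x => ?_⟩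
    rw [norm_iteratedFDeriv_zero]
    exact norm_cv_le hk hs (fun y => by simpa using hM y) v x
  | succ n ih =>
    intro G _ _ u hu
    refine ⟨?_, fun M hM x => ?_⟩
    · rw [Nat.cast_succ, contDiff_succ_iff_fderiv]
      refine ⟨fun x => (hasFDerivAt_cv hk hs hu v x).differentiableAt, by simp, ?_⟩
      rw [fderiv_cv hk hs hu]
      exact (ih hu.fderiv).1
    · rw [← norm_iteratedFDeriv_fderiv, fderiv_cv hk hs hu]
      exact (ih hu.fderiv).2 M (fun y => by rw [norm_iteratedFDeriv_fderiv]; exact hM y) x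

lemma Sm.cv {k : ℝ → ℝ} (hk : Continuous k) (hs : HasCompactSupport k) {u : E2 → G} (hu : Sm u)
    (v : E2) : Sm (cv v k u) := by
  refine ⟨contDiff_infty.2 fun n => (cv_iter hk hs v n hu).1, fun i => ?_⟩
  obtain ⟨M, hM⟩ := hu.2 i
  exact ⟨_, (cv_iter hk hs v i hu).2 M hM⟩

lemma cv_clm [CompleteSpace G] [CompleteSpace H] {k : ℝ → ℝ} (hk : Continuous k) (hs : HasCompactSupport k) {u : E2 → G}
    (hu : Continuous u) (L : G →L[ℝ] H) (v x : E2) :
    L (cv v k u x) = cv v k (fun y => L (u y)) x := by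
  rw [NM.cv, ← L.integral_comp_comm (integrable_cv hk hs hu v x)]
  simp [NM.cv, map_smul]

/-- The derivative along the direction of convolution falls on the kernel. -/
lemma fderiv_cv_along [CompleteSpace G] {k : ℝ → ℝ} (hk : ContDiff ℝ ∞ k) (hs : HasCompactSupport k) {u : E2 → G}
    (hu : Sm u) (v x : E2) :
    _root_.fderiv ℝ (cv v k u) x v = cv v (deriv k) u x := by
  have hc : Continuous (_root_.fderiv ℝ u) := hu.fderiv.1.continuous
  have hd : Differentiable ℝ u := hu.1.differentiable (by norm_num)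
  have hk' : Continuous (deriv k) := hk.continuous_deriv (by norm_num)
  have i1 := integrable_cv hk' hs.deriv hu.1.continuous v x
  have i2 := integrable_cv hk.continuous hs
    (show Continuous fun y => _root_.fderiv ℝ u y v from hc.clm_apply continuous_const) v x
  have hzero : ∫ t, (deriv k t • u (x - t • v) - k t • _root_.fderiv ℝ u (x - t • v) v) = 0 := by
    refine integral_eq_zero_of_hasDerivAt_of_integrable
      (f := fun t => k t • u (x - t • v)) (fun t => ?_) (i1.sub i2)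
      (integrable_cv hk.continuous hs hu.1.continuous v x)
    have h1 : HasDerivAt (fun t : ℝ => u (x - t • v)) (-_root_.fderiv ℝ u (x - t • v) v) t := by
      have h2 : HasDerivAt (fun t : ℝ => x - t • v) (-v) t := by
        simpa using ((hasDerivAt_id t).smul_const v).const_sub x
      have h3 := (hd (x - t • v)).hasFDerivAt.comp_hasDerivAt t h2
      rw [map_neg] at h3
      exact h3
    have h4 := ((hk.differentiable (by norm_num)) t).hasDerivAt.smul h1
    rw [smul_neg, ← sub_eq_neg_add] at h4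
    exact h4
  rw [integral_sub i1 i2, sub_eq_zero] at hzero
  rw [fderiv_cv hk.continuous hs hu]
  have h5 : ContinuousLinearMap.apply ℝ G v (cv v k (_root_.fderiv ℝ u) x) = _ :=
    cv_clm hk.continuous hs hc (ContinuousLinearMap.apply ℝ G v) v x
  exact h5.trans hzero.symm

lemma cv_support {k : ℝ → ℝ} {r : ℝ} (hr : ∀ t, r ≤ |t| → k t = 0) {u : E2 → G} {K : Set E2}
    (hu : ∀ x ∉ K, u x = 0) {v : E2} (hv : ‖v‖ ≤ 1) {x : E2}
    (hx : x ∉ Metric.cthickening r K) : cv v k u x = 0 := by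
  refine integral_eq_zero_of_ae (.of_forall fun t => ?_)
  by_cases ht : r ≤ |t|
  · simp [hr t ht]
  · have : x - t • v ∉ K := by
      intro hm
      refine hx (Metric.mem_cthickening_of_dist_le x (x - t • v) r K hm ?_)
      rw [dist_eq_norm, sub_sub_cancel, norm_smul, Real.norm_eq_abs]
      exact (mul_le_of_le_one_right (abs_nonneg _) hv).trans (le_of_lt (not_le.1 ht))
    simp [hu _ this]

lemma norm_ev (i : Fin 2) : ‖ev i‖ = 1 := by simp [ev]

lemma ev_sum (v : E2) : v = v 0 • ev 0 + v 1 • ev 1 := by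
  ext i; fin_cases i <;> simp [ev]

/-- Convolution in both coordinates. -/
noncomputable def cv2 (kx ky : ℝ → ℝ) (u : E2 → G) : E2 → G := cv (ev 0) kx (cv (ev 1) ky u)

lemma Sm.cv2 {kx ky : ℝ → ℝ} (h1 : ContDiff ℝ ∞ kx) (h1s : HasCompactSupport kx)
    (h2 : ContDiff ℝ ∞ ky) (h2s : HasCompactSupport ky) {u : E2 → G} (hu : Sm u) :
    Sm (cv2 kx ky u) :=
  (hu.cv h2.continuous h2s _).cv h1.continuous h1s _

lemma cv2_partial0 [CompleteSpace G] {kx ky : ℝ → ℝ} (h1 : ContDiff ℝ ∞ kx) (h1s : HasCompactSupport kx)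
    (h2 : ContDiff ℝ ∞ ky) (h2s : HasCompactSupport ky) {u : E2 → G} (hu : Sm u) (x : E2) :
    _root_.fderiv ℝ (cv2 kx ky u) x (ev 0) = cv2 (deriv kx) ky u x :=
  fderiv_cv_along h1 h1s (hu.cv h2.continuous h2s _) _ x

lemma cv2_partial1 [CompleteSpace G] {kx ky : ℝ → ℝ} (h1 : ContDiff ℝ ∞ kx) (h1s : HasCompactSupport kx)
    (h2 : ContDiff ℝ ∞ ky) (h2s : HasCompactSupport ky) {u : E2 → G} (hu : Sm u) (x : E2) :
    _root_.fderiv ℝ (cv2 kx ky u) x (ev 1) = cv2 kx (deriv ky) u x := by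
  have hw := hu.cv h2.continuous h2s (ev 1)
  rw [NM.cv2, fderiv_cv h1.continuous h1s hw]
  have h5 : ContinuousLinearMap.apply ℝ G (ev 1)
      (NM.cv (ev 0) kx (_root_.fderiv ℝ (NM.cv (ev 1) ky u)) x) = _ :=
    cv_clm h1.continuous h1s hw.fderiv.1.continuous (ContinuousLinearMap.apply ℝ G (ev 1)) _ x
  refine h5.trans ?_
  simp only [NM.cv2, ContinuousLinearMap.apply_apply, fderiv_cv_along h2 h2s hu]

/-- The gain of derivatives. -/
lemma cv2_gain [CompleteSpace G] (n : ℕ) : ∀ (kx ky : ℝ → ℝ), ContDiff ℝ ∞ kx → HasCompactSupport kx →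
    ContDiff ℝ ∞ ky → HasCompactSupport ky → ∀ a b θ : ℝ, 0 ≤ θ →
    (∀ i ≤ n, ∫ t, |iteratedDeriv i kx t| ≤ a * θ ^ i) →
    (∀ i ≤ n, ∫ t, |iteratedDeriv i ky t| ≤ b * θ ^ i) →
    ∀ (u : E2 → G) (M : ℝ), Sm u → (∀ x, ‖u x‖ ≤ M) →
      ∀ x, ‖iteratedFDeriv ℝ n (cv2 kx ky u) x‖ ≤ (2 * θ) ^ n * (a * b * M) := by
  induction n with
  | zero =>
    intro kx ky h1 h1s h2 h2s a b θ _ ha hb u M hu hM x
    have ha0 := ha 0 le_rfl; have hb0 := hb 0 le_rfl
    simp only [iteratedDeriv_zero, pow_zero, mul_one] at ha0 hb0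
    have hM0 : 0 ≤ M := (norm_nonneg _).trans (hM x)
    have hb' : 0 ≤ b := le_trans (integral_nonneg fun _ => abs_nonneg _) hb0
    have key : ∀ y, ‖cv (ev 1) ky u y‖ ≤ b * M := fun y =>
      (norm_cv_le h2.continuous h2s hM _ y).trans (mul_le_mul_of_nonneg_right hb0 hM0)
    rw [norm_iteratedFDeriv_zero, pow_zero, one_mul, mul_assoc]
    exact (norm_cv_le h1.continuous h1s key _ x).trans
      (mul_le_mul_of_nonneg_right ha0 (by positivity))
  | succ n ih =>
    intro kx ky h1 h1s h2 h2s a b θ hθ ha hb u M hu hM x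
    have h1' : ContDiff ℝ ∞ (deriv kx) := (contDiff_infty_iff_deriv.1 h1).2
    have h2' : ContDiff ℝ ∞ (deriv ky) := (contDiff_infty_iff_deriv.1 h2).2
    let A : G →L[ℝ] E2 →L[ℝ] G := ContinuousLinearMap.smulRightL ℝ E2 G (EuclideanSpace.proj 0)
    let B : G →L[ℝ] E2 →L[ℝ] G := ContinuousLinearMap.smulRightL ℝ E2 G (EuclideanSpace.proj 1)
    have hp : ∀ i : Fin 2, ‖(EuclideanSpace.proj i : E2 →L[ℝ] ℝ)‖ ≤ 1 := fun i =>
      ContinuousLinearMap.opNorm_le_bound _ zero_le_one fun v => by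
        simpa using PiLp.norm_apply_le v i
    have hnorm : ∀ i : Fin 2,
        ‖ContinuousLinearMap.smulRightL ℝ E2 G (EuclideanSpace.proj i : E2 →L[ℝ] ℝ)‖ ≤ 1 :=
      fun i => ContinuousLinearMap.opNorm_le_bound _ zero_le_one fun w => by
        rw [ContinuousLinearMap.smulRightL_apply_apply, ContinuousLinearMap.norm_smulRight_apply,
          one_mul]
        exact mul_le_of_le_one_left (norm_nonneg _) (hp i)
    set P := cv2 (deriv kx) ky u
    set Q := cv2 kx (deriv ky) u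
    have hP : Sm P := hu.cv2 h1' h1s.deriv h2 h2s
    have hQ : Sm Q := hu.cv2 h1 h1s h2' h2s.deriv
    have hD : _root_.fderiv ℝ (cv2 kx ky u) = fun y => A (P y) + B (Q y) := by
      funext y
      ext v
      conv_lhs => rw [ev_sum v]
      simp [A, B, P, Q, cv2_partial0 h1 h1s h2 h2s hu, cv2_partial1 h1 h1s h2 h2s hu]
    rw [← norm_iteratedFDeriv_fderiv, hD]
    rw [fun_iteratedFDeriv_add_apply ((hP.clm A).1.of_le (by exact_mod_cast le_top) |>.contDiffAt)
      ((hQ.clm B).1.of_le (by exact_mod_cast le_top) |>.contDiffAt)]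
    refine (norm_add_le _ _).trans ?_
    have eA := A.norm_iteratedFDeriv_comp_left (x := x) hP.1.contDiffAt
      (show (n : WithTop ℕ∞) ≤ ∞ by exact_mod_cast le_top)
    have eB := B.norm_iteratedFDeriv_comp_left (x := x) hQ.1.contDiffAt
      (show (n : WithTop ℕ∞) ≤ ∞ by exact_mod_cast le_top)
    have iP := ih (deriv kx) ky h1' h1s.deriv h2 h2s (a * θ) b θ hθ
      (fun i hi => by
        have := ha (i + 1) (by omega)
        rw [iteratedDeriv_succ'] at this
        rw [mul_assoc, ← pow_succ']; exact this)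
      (fun i hi => hb i (by omega)) u M hu hM x
    have iQ := ih kx (deriv ky) h1 h1s h2' h2s.deriv a (b * θ) θ hθ
      (fun i hi => ha i (by omega))
      (fun i hi => by
        have := hb (i + 1) (by omega)
        rw [iteratedDeriv_succ'] at this
        rw [mul_assoc, ← pow_succ']; exact this) u M hu hM x
    calc ‖iteratedFDeriv ℝ n (fun y => A (P y)) x‖ + ‖iteratedFDeriv ℝ n (fun y => B (Q y)) x‖
        ≤ ‖iteratedFDeriv ℝ n P x‖ + ‖iteratedFDeriv ℝ n Q x‖ :=
          add_le_add (eA.trans (mul_le_of_le_one_left (norm_nonneg _) (hnorm 0)))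
            (eB.trans (mul_le_of_le_one_left (norm_nonneg _) (hnorm 1)))
      _ ≤ _ := (add_le_add iP iQ).trans (le_of_eq (by ring))

/-- Taylor's formula for a chain of derivatives, with a crude constant. -/
lemma taylor_chain (N : ℕ) : ∀ (h : ℕ → ℝ → G) (M : ℝ),
    (∀ i < N, ∀ t, HasDerivAt (h i) (h (i + 1) t) t) → (∀ t, ‖h N t‖ ≤ M) →
    ∀ t, ‖h 0 t - ∑ i ∈ Finset.range N, (t ^ i / i.factorial) • h i 0‖ ≤ M * |t| ^ N := by
  induction N with
  | zero => intro h M _ hM t; simpa using hM t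
  | succ N ih =>
    intro h M hd hM t
    set ψ : ℝ → G := fun s => h 0 s - ∑ i ∈ Finset.range (N + 1), (s ^ i / i.factorial) • h i 0
    have hψ : ∀ s, HasDerivAt ψ
        (h 1 s - ∑ i ∈ Finset.range N, (s ^ i / i.factorial) • h (i + 1) 0) s := by
      intro s
      simp only [ψ, Finset.sum_range_succ', pow_zero]
      refine (hd 0 (by omega) s).sub ?_
      refine HasDerivAt.add_const _ ?_
      refine HasDerivAt.fun_sum fun i _ => ?_
      have := ((hasDerivAt_pow (i + 1) s).div_const ((i + 1).factorial : ℝ)).smul_const (h (i + 1) 0)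
      convert this using 2
      rw [Nat.factorial_succ]; push_cast
      field_simp
    have hψ0 : ψ 0 = 0 := by
      simp [ψ, Finset.sum_range_succ']
    have hM0 : 0 ≤ M := (norm_nonneg _).trans (hM 0)
    have hbd : ∀ s ∈ Set.uIcc 0 t,
        ‖h 1 s - ∑ i ∈ Finset.range N, (s ^ i / i.factorial) • h (i + 1) 0‖ ≤ M * |t| ^ N := by
      intro s hs
      refine (ih (fun i => h (i + 1)) M (fun i hi => hd (i + 1) (by omega)) hM s).trans ?_
      have : |s| ≤ |t| := by
        simpa using Set.abs_sub_left_of_mem_uIcc hs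
      gcongr
    have := (convex_uIcc (0 : ℝ) t).norm_image_sub_le_of_norm_hasDerivWithin_le
      (f := ψ) (fun s _ => (hψ s).hasDerivWithinAt) hbd Set.left_mem_uIcc Set.right_mem_uIcc
    rw [hψ0, sub_zero, sub_zero, Real.norm_eq_abs, mul_assoc, ← pow_succ] at this
    exact this

/-- Iterated derivatives along a direction. -/
noncomputable def dirD (v : E2) : ℕ → (E2 → G) → E2 → G
  | 0, u => u
  | i + 1, u => dirD v i fun x => _root_.fderiv ℝ u x v

lemma Sm.dir {u : E2 → G} (hu : Sm u) (v : E2) : Sm fun x => _root_.fderiv ℝ u x v :=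
  hu.fderiv.clm (ContinuousLinearMap.apply ℝ G v)

lemma dirD_prop {v : E2} (hv : ‖v‖ ≤ 1) : ∀ (i : ℕ) (u : E2 → G), Sm u → Sm (dirD v i u) ∧
    (∀ x, _root_.fderiv ℝ (dirD v i u) x v = dirD v (i + 1) u x) ∧
    ∀ x, ‖dirD v i u x‖ ≤ ‖iteratedFDeriv ℝ i u x‖ := by
  intro i
  induction i with
  | zero => exact fun u hu => ⟨hu, fun x => rfl, fun x => by simp [dirD]⟩
  | succ i ih =>
    intro u hu
    obtain ⟨h1, h2, h3⟩ := ih _ (hu.dir v)
    refine ⟨h1, h2, fun x => (h3 x).trans ?_⟩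
    rw [← norm_iteratedFDeriv_fderiv]
    refine ((ContinuousLinearMap.apply ℝ G v).norm_iteratedFDeriv_comp_left
      hu.fderiv.1.contDiffAt (by exact_mod_cast le_top)).trans ?_
    refine mul_le_of_le_one_left (norm_nonneg _) (ContinuousLinearMap.opNorm_le_bound _ zero_le_one
      fun L => ?_)
    rw [ContinuousLinearMap.apply_apply, one_mul]
    exact (L.le_opNorm v).trans (mul_le_of_le_one_right (norm_nonneg _) hv)

/-- Approximation by the one-dimensional convolution. -/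
lemma cv_approx [CompleteSpace G] {k : ℝ → ℝ} (hk : Continuous k) (hs : HasCompactSupport k) {u : E2 → G}
    (hu : Sm u) {v : E2} (hv : ‖v‖ ≤ 1) {N : ℕ} {M ε : ℝ} (hN : 1 ≤ N) (hM : Bnd N u M)
    (h1 : ∀ i < N, |(∫ t, t ^ i * k t) - if i = 0 then 1 else 0| ≤ ε)
    (h2 : ∫ t, |t| ^ N * |k t| ≤ ε) (x : E2) :
    ‖u x - cv v k u x‖ ≤ (N + 1) * ε * M := by
  have hw : ‖-v‖ ≤ 1 := by rwa [norm_neg]
  set h : ℕ → ℝ → G := fun i t => dirD (-v) i u (x + t • -v)
  have hd : ∀ i < N, ∀ t, HasDerivAt (h i) (h (i + 1) t) t := by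
    intro i _ t
    obtain ⟨hsm, hder, -⟩ := dirD_prop hw i u hu
    have h2 : HasDerivAt (fun t : ℝ => x + t • -v) (-v) t := by
      simpa using ((hasDerivAt_id t).smul_const (-v)).const_add x
    have h3 := (hsm.1.differentiable (by norm_num) _).hasFDerivAt.comp_hasDerivAt t h2
    rw [hder] at h3
    exact h3
  have hb : ∀ i ≤ N, ∀ t, ‖h i t‖ ≤ M := fun i hi t =>
    ((dirD_prop hw i u hu).2.2 _).trans (hM i hi _)
  have hT := taylor_chain N h M hd (hb N le_rfl)
  have hM0 : 0 ≤ M := (norm_nonneg _).trans (hb 0 (by omega) 0)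
  have hh0 : ∀ t : ℝ, u (x - t • v) = h 0 t := fun t => by
    simp [h, dirD, sub_eq_add_neg]
  have hi1 : ∀ i, Integrable fun t : ℝ => t ^ i * k t := fun i =>
    ((continuous_pow i).mul hk).integrable_of_hasCompactSupport hs.mul_left
  have hi2 : Integrable fun t => k t • h 0 t := by
    simpa [hh0] using integrable_cv hk hs hu.1.continuous v x
  have hi3 : ∀ i, Integrable fun t : ℝ => k t • ((t ^ i / (i.factorial : ℝ)) • h i 0) := fun i => by
    have := ((hi1 i).div_const (i.factorial : ℝ)).smul_const (h i 0)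
    convert this using 1
    funext t; rw [smul_smul]; congr 1; ring
  have e1 : cv v k u x = (∫ t, k t • (h 0 t - ∑ i ∈ Finset.range N, (t ^ i / (i.factorial : ℝ)) • h i 0))
      + ∑ i ∈ Finset.range N, ((∫ t, t ^ i * k t) / (i.factorial : ℝ)) • h i 0 := by
    have e2 : ∀ i, ((∫ t, t ^ i * k t) / (i.factorial : ℝ)) • h i 0 =
        ∫ t, k t • ((t ^ i / (i.factorial : ℝ)) • h i 0) := fun i => by
      rw [← integral_div, ← integral_smul_const]
      congr 1 with t
      rw [smul_smul]; congr 1; ring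
    rw [Finset.sum_congr rfl fun i _ => e2 i, ← integral_finsetSum _ fun i _ => hi3 i]
    simp only [smul_sub, Finset.smul_sum]
    rw [integral_sub hi2 (integrable_finsetSum _ fun i _ => hi3 i), sub_add_cancel]
    simp [cv, hh0]
  have e3 : u x = ∑ i ∈ Finset.range N,
      (((if i = 0 then 1 else 0 : ℝ)) / (i.factorial : ℝ)) • h i 0 := by
    rw [Finset.sum_eq_single 0 (fun i _ hi => by simp [hi]) (fun h => absurd (Finset.mem_range.2 hN) h)]
    simp [h, dirD]
  rw [e1, e3, sub_add_eq_sub_sub, sub_right_comm, ← Finset.sum_sub_distrib]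
  refine (norm_sub_le _ _).trans ?_
  have b1 : ‖∑ i ∈ Finset.range N, (((if i = 0 then 1 else 0 : ℝ) / (i.factorial : ℝ)) • h i 0 -
      ((∫ t, t ^ i * k t) / (i.factorial : ℝ)) • h i 0)‖ ≤ N * (ε * M) := by
    refine (norm_sum_le _ _).trans ?_
    refine (Finset.sum_le_card_nsmul _ _ (ε * M) fun i hi => ?_).trans (by simp)
    rw [Finset.mem_range] at hi
    rw [← sub_smul, ← sub_div, norm_smul, Real.norm_eq_abs]
    refine mul_le_mul ?_ (hb i hi.le 0) (norm_nonneg _) ((abs_nonneg _).trans (h1 i hi))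
    rw [abs_div, Nat.abs_cast, abs_sub_comm]
    exact (div_le_self (abs_nonneg _) (by exact_mod_cast i.factorial_pos)).trans (h1 i hi)
  have b2 : ‖∫ t, k t • (h 0 t - ∑ i ∈ Finset.range N, (t ^ i / (i.factorial : ℝ)) • h i 0)‖ ≤
      ε * M := by
    refine (norm_integral_le_integral_norm _).trans ((integral_mono_of_nonneg
      (.of_forall fun _ => norm_nonneg _) ?_ (.of_forall fun t => ?_)).trans
      (le_trans (le_of_eq (integral_mul_const M _)) (mul_le_mul_of_nonneg_right h2 hM0)))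
    · exact (((continuous_abs.pow N).mul hk.abs).integrable_of_hasCompactSupport
        (hs.abs.mul_left)).mul_const M
    · simp only [norm_smul, Real.norm_eq_abs]
      calc |k t| * ‖_‖ ≤ |k t| * (M * |t| ^ N) := mul_le_mul_of_nonneg_left (hT t) (abs_nonneg _)
        _ = _ := by ring
  linarith

/-- The smoothing operator. -/
noncomputable def smooth (θ : ℝ) (u : E2 → G) : E2 → G := cv2 (ker θ) (ker θ) u

lemma Sm.smooth {θ : ℝ} (hθ : 0 < θ) {u : E2 → G} (hu : Sm u) : Sm (smooth θ u) :=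
  hu.cv2 (ker_smooth θ) (ker_compact hθ) (ker_smooth θ) (ker_compact hθ)

lemma smooth_support {θ r : ℝ} (hθ : 0 < θ) (hr : 1 / √θ ≤ r) {u : E2 → G} {K : Set E2}
    (hu : ∀ x ∉ K, u x = 0) {x : E2} (hx : x ∉ Metric.cthickening (r + r) K) :
    smooth θ u x = 0 := by
  have hk : ∀ t, r ≤ |t| → ker θ t = 0 := fun t ht => ker_zero hθ (hr.trans ht)
  have h0 : (0 : ℝ) ≤ r := le_trans (by positivity) hr
  refine cv_support hk (K := Metric.cthickening r K)
    (fun y hy => cv_support hk hu (norm_ev 1).le hy) (norm_ev 0).le fun hm => hx ?_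
  exact Metric.cthickening_cthickening_subset h0 h0 K hm

/-- The constant of the gain estimate. -/
lemma smooth_gain [CompleteSpace G] (s : ℕ) : ∃ C, 0 ≤ C ∧ ∀ θ : ℝ, 1 ≤ θ →
    ∀ (u : E2 → G) (M : ℝ), 0 ≤ M → Sm u → (∀ x, ‖u x‖ ≤ M) →
      Bnd s (smooth θ u) (C * θ ^ s * M) := by
  choose c hc0 hc using ker_deriv_norm
  set a := ∑ i ∈ Finset.range (s + 1), c i
  have ha : 0 ≤ a := Finset.sum_nonneg fun i _ => hc0 i
  refine ⟨2 ^ s * (a * a), by positivity, fun θ hθ u M hM0 hu hM i hi x => ?_⟩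
  have hθ0 : 0 < θ := by linarith
  have key : ∀ j ≤ i, ∫ t, |iteratedDeriv j (ker θ) t| ≤ a * θ ^ j := fun j hj =>
    (hc j θ hθ).trans (mul_le_mul_of_nonneg_right
      (Finset.single_le_sum (fun l _ => hc0 l) (Finset.mem_range.2 (by omega))) (by positivity))
  refine (cv2_gain i _ _ (ker_smooth θ) (ker_compact hθ0) (ker_smooth θ) (ker_compact hθ0) a a θ
    hθ0.le key key u M hu hM x).trans ?_
  calc (2 * θ) ^ i * (a * a * M) ≤ (2 * θ) ^ s * (a * a * M) :=
        mul_le_mul_of_nonneg_right (pow_le_pow_right₀ (by linarith) hi) (by positivity)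
    _ = _ := by rw [mul_pow]; ring

lemma smooth_sub_zero [CompleteSpace G] (N : ℕ) (hN : 1 ≤ N) : ∃ C, 0 ≤ C ∧ ∀ θ : ℝ, 1 ≤ θ →
    ∀ (u : E2 → G) (M : ℝ), Sm u → Bnd N u M → ∀ x, ‖u x - smooth θ u x‖ ≤ C * M / θ ^ N := by
  obtain ⟨C, hC, h⟩ := ker_moment N
  obtain ⟨c, hc0, hc⟩ := ker_deriv_norm 0
  refine ⟨(N + 1) * C * (1 + c), by positivity, fun θ hθ u M hu hM x => ?_⟩
  have hθ0 : 0 < θ := by linarith
  obtain ⟨h1, h2⟩ := h θ hθ
  have hk := (ker_smooth θ).continuous
  have hs := ker_compact hθ0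
  have a1 := cv_approx hk hs hu (norm_ev 0).le hN hM h1 h2 x
  set d := u - cv (ev 1) (ker θ) u
  have a2 : ∀ y, ‖d y‖ ≤ (N + 1) * (C / θ ^ N) * M :=
    cv_approx hk hs hu (norm_ev 1).le hN hM h1 h2
  have a3 := norm_cv_le hk hs a2 (ev 0) x
  have hlin : cv (ev 0) (ker θ) d x = cv (ev 0) (ker θ) u x - smooth θ u x := by
    have i1 := integrable_cv hk hs hu.1.continuous (ev 0) x
    have i2 := integrable_cv hk hs (hu.cv hk hs (ev 1)).1.continuous (ev 0) x
    simp only [smooth, cv2, cv, d, Pi.sub_apply, smul_sub] at i1 i2 ⊢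
    rw [integral_sub i1 i2]
  have hc' : ∫ t, |ker θ t| ≤ c := by simpa using hc θ hθ
  have hM0 : 0 ≤ M := (norm_nonneg _).trans (hM 0 (Nat.zero_le _) x)
  have hE : 0 ≤ (N + 1 : ℝ) * (C / θ ^ N) * M := by positivity
  calc ‖u x - smooth θ u x‖ = ‖(u x - cv (ev 0) (ker θ) u x) + cv (ev 0) (ker θ) d x‖ := by
        rw [hlin]; congr 1; abel
    _ ≤ (N + 1) * (C / θ ^ N) * M + c * ((N + 1) * (C / θ ^ N) * M) :=
        (norm_add_le _ _).trans (add_le_add a1 (a3.trans (mul_le_mul_of_nonneg_right hc' hE)))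
    _ = _ := by ring

lemma fderiv_smooth {θ : ℝ} (hθ : 0 < θ) {u : E2 → G} (hu : Sm u) :
    _root_.fderiv ℝ (smooth θ u) = smooth θ (_root_.fderiv ℝ u) := by
  have hk := (ker_smooth θ).continuous
  have hs := ker_compact hθ
  simp only [smooth, cv2, fderiv_cv hk hs (hu.cv hk hs (ev 1)), fderiv_cv hk hs hu]

lemma bnd_fderiv_iff {u : E2 → G} {s : ℕ} {M : ℝ} (h : Bnd (s + 1) u M) :
    Bnd s (_root_.fderiv ℝ u) M := fun i hi x => by
  rw [norm_iteratedFDeriv_fderiv]; exact h (i + 1) (by omega) x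

/-- The approximation estimate. -/
lemma smooth_sub (N : ℕ) (hN : 1 ≤ N) (j : ℕ) :
    ∀ {G : Type} [NormedAddCommGroup G] [NormedSpace ℝ G] [CompleteSpace G],
      ∃ C, 0 ≤ C ∧ ∀ θ : ℝ, 1 ≤ θ → ∀ (u : E2 → G) (M : ℝ), Sm u → Bnd (N + j) u M →
        ∀ x, ‖iteratedFDeriv ℝ j (fun y => u y - smooth θ u y) x‖ ≤ C * M / θ ^ N := by
  induction j with
  | zero =>
    intro G _ _ _
    obtain ⟨C, hC, h⟩ := smooth_sub_zero (G := G) N hN
    exact ⟨C, hC, fun θ hθ u M hu hM x => by rw [norm_iteratedFDeriv_zero]; exact h θ hθ u M hu hM x⟩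
  | succ j ih =>
    intro G _ _ _
    obtain ⟨C, hC, h⟩ := ih (G := E2 →L[ℝ] G)
    refine ⟨C, hC, fun θ hθ u M hu hM x => ?_⟩
    have hθ0 : 0 < θ := by linarith
    rw [← norm_iteratedFDeriv_fderiv]
    have hd : _root_.fderiv ℝ (fun y => u y - smooth θ u y) =
        fun y => _root_.fderiv ℝ u y - smooth θ (_root_.fderiv ℝ u) y := by
      funext y
      rw [fderiv_fun_sub (hu.1.differentiable (by norm_num) y)
        ((hu.smooth hθ0).1.differentiable (by norm_num) y), fderiv_smooth hθ0 hu]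
    rw [hd]
    exact h θ hθ _ M hu.fderiv (bnd_fderiv_iff hM) x

end Vale.Agent.P205F.NM
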